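import Mathlib
import Vale.Agent.P319.Ev.IA3
import Vale.Agent.P319.Ev.Spec
import Vale.Agent.P319.SC.Defs

/-! P319, block S2, number theory (QL12): primes `l ≡ 1` modulo `r` below `exp (C (log r)^(3/2))`;
statements of the packages (the same as QIface.lean, with `lam r = (1 + log r)^(1/2)`). -/

set_option linter.all false

namespace Vale.Agent.P319.S2.NT

open Vale.Agent.P319.Ev Vale.Agent.P319.Ev.IA DirichletCharacter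

/-- `(1 + log r) ^ (1/2)` -/
noncomputable def lam (r : ℕ) : ℝ := LL r ^ (1 / 2 : ℝ)

/-- **QL12-D**: few characters have a zero near `1` -/
def DenStmt : Prop := ∀ A : ℝ, 0 < A → ∃ (B : ℝ) (r₀ : ℕ), ∀ (r : ℕ) [NeZero r], r.Prime → r₀ ≤ r →
  ∀ S : Finset (DirichletCharacter ℂ r),
    (∀ χ ∈ S, χ ≠ 1 ∧ ∃ ρ : ℂ, ‖ρ - 1‖ < A * lam r / LL r ∧ LFunction χ ρ = 0) →
      (S.card : ℝ) ≤ Real.exp (B * lam r)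

/-- **QL12-R**: repulsion: if a real character has a zero extremely close to `1`, there are no other
zeros near `1` -/
def RepStmt : Prop := ∀ A κ : ℝ, 0 < A → 0 < κ → ∃ (c : ℝ) (r₀ : ℕ), 0 < c ∧
  ∀ (r : ℕ) [NeZero r], r.Prime → r₀ ≤ r → ∀ χ₁ : DirichletCharacter ℂ r, χ₁ ≠ 1 → χ₁ ^ 2 = 1 →
    ∀ β : ℂ, LFunction χ₁ β = 0 → ‖β - 1‖ ≤ Real.exp (-(c * lam r)) →
    ∀ χ : DirichletCharacter ℂ r, χ ≠ 1 → ∀ ρ : ℂ, ‖ρ - 1‖ < A * lam r / LL r →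
      LFunction χ ρ = 0 → χ = χ₁ ∧ ‖ρ - 1‖ < κ / LL r

/-- **QL12-IA**: the sum over all nonprincipal characters is smaller than the main term, at
`δ = a lam r / log r`, `k ≥ C log r` -/
def IA2Stmt : Prop := ∃ a₀ : ℝ, 0 < a₀ ∧ ∀ a : ℝ, 0 < a → a ≤ a₀ → ∃ (C : ℝ) (r₀ : ℕ), 1 ≤ C ∧
  ∀ r : ℕ, r.Prime → r₀ ≤ r → ∀ k : ℕ, C * LL r ≤ k →
    ∀ S : Finset (DirichletCharacter ℂ r), (∀ χ ∈ S, χ ≠ 1) →
      ∑ χ ∈ S, ‖Schi χ k (a * lam r / LL r)‖ ≤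
        (a * lam r / LL r) ^ (-((k : ℝ) + 1)) * (1 - (r : ℝ) ^ (-C))

/-- **QL12-Q** (compare `QLStmt` in Ev/Spec.lean) -/
def QL2Stmt : Prop := ∀ η : ℝ, 0 < η → ∃ C : ℝ, 0 < C ∧ ∀ r : ℕ, r.Prime → ∀ U : ℝ,
  C * LL r ^ 2 / lam r ≤ U → ∃ y : ℕ, Real.exp (U / 8) ≤ y ∧ (y : ℝ) ≤ Real.exp (7 * U) ∧
    (y : ℝ) ^ (1 - η) ≤ ((Finset.Ioc y (2 * y)).filter fun l => l.Prime ∧ l % r = 1).card

/-- the exponent `(log s)^(1/2)` (rounded) -/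
noncomputable def scE12 (s : ℕ) : ℕ := ⌈((Nat.log 2 s : ℕ) : ℝ) ^ (1 / 2 : ℝ)⌉₊ + 1

/-- **QL12-NR** (compare `NRStmt` in Ev/Spec.lean) -/
def NR2Stmt : Prop := ∀ ε : ℝ, 0 < ε → ∃ (C : ℕ) (E : Set ℕ),
  (∀ X : ℕ, ((E ∩ Set.Iic X).ncard : ℝ) ≤ C * (X : ℝ) ^ (1 / 2 + ε)) ∧
  ∀ p : ℕ, p.Prime → p ∉ E → ∀ r : ℕ, r.Prime → ∀ N : ℕ, (r ^ scE12 r * Nat.size p) ^ C ≤ N →
    p ≤ N ∨ ∃ l < N, l.Prime ∧ l % r = 1 ∧ p % l ≠ 0 ∧ p ^ ((l - 1) / r) % l ≠ 1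

end Vale.Agent.P319.S2.NT
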