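import Vale.Agent.P319.S2.NT.QIface12

/-! P319, block S2, number theory: statements of the new packages for the exponent `1/2`
(zero-free region near `1` in place of the zero-free disc). -/

set_option linter.all false

namespace Vale.Agent.P319.S2.NT

open Vale.Agent.P319.Ev Vale.Agent.P319.Ev.IA DirichletCharacter Metric

/-- **ZF**: the classical zero-free region `Re s > 1 - c / log r` near `1` -/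
def ZFStmt : Prop := ∃ c₁ ε₀ : ℝ, 0 < c₁ ∧ c₁ ≤ 1 / 400 ∧ 0 < ε₀ ∧ ε₀ ≤ 1 / 8 ∧
  ∀ (r : ℕ) [NeZero r] (χ : DirichletCharacter ℂ r), χ ≠ 1 →
    (χ ^ 2 ≠ 1 → ∀ a : ℂ, ‖a - 1‖ < ε₀ → 1 - c₁ / LL r < a.re → LFunction χ a ≠ 0) ∧
    ∀ a : ℂ, ‖a - 1‖ < ε₀ → 1 - c₁ / LL r < a.re → LFunction χ a = 0 →
      ∀ b : ℂ, ‖b - 1‖ < ε₀ → 1 - c₁ / LL r < b.re → dslope (LFunction χ) a b ≠ 0

/-- **BR**: no zero in the disc of radius `R` about `1 + d` -/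
def BndRStmt : Prop := ∃ C : ℝ, 2 ≤ C ∧ ∀ (r : ℕ) [NeZero r] (χ : DirichletCharacter ℂ r), χ ≠ 1 →
  ∀ d R : ℝ, 0 < d → d ≤ 1 / 8 → 0 < R → R ≤ 1 / 2 →
    (∀ z ∈ ball ((1 + d : ℝ) : ℂ) R, LFunction χ z ≠ 0) →
      ∀ k : ℕ, ‖Schi χ k d‖ ≤ C * LL r * ((k : ℝ) + 1) ^ 2 / R ^ (k + 1)

/-- **BOR**: one zero `a` in the disc of radius `R` about `1 + d` -/
def BndOneRStmt : Prop := ∃ C : ℝ, 2 ≤ C ∧ ∀ (r : ℕ) [NeZero r] (χ : DirichletCharacter ℂ r),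
  χ ≠ 1 → ∀ d R : ℝ, 0 < d → d ≤ 1 / 8 → 0 < R → R ≤ 1 / 2 → ∀ a : ℂ, ‖a - 1‖ ≤ 1 / 8 →
    LFunction χ a = 0 → (∀ z ∈ ball ((1 + d : ℝ) : ℂ) R, dslope (LFunction χ) a z ≠ 0) →
      ∀ k : ℕ, ‖Schi χ k d‖ ≤ 1 / ‖((1 + d : ℝ) : ℂ) - a‖ ^ (k + 1) +
        C * LL r * ((k : ℝ) + 1) ^ 2 / R ^ (k + 1)

end Vale.Agent.P319.S2.NT
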