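import Vale.Agent.P319.Ev.IA
import Vale.Agent.P319.S2.NT.ZFI

/-! P319, block S2, number theory: bounds for `Schi` with no zero / one zero in a disc of
radius `R` about `1 + d` (after SC/QL/H232/Bnd). -/

set_option linter.all false

namespace Vale.Agent.P319.S2.NT

open Complex Metric Set DirichletCharacter ArithmeticFunction
open Vale.Agent.P319.Ev Vale.Agent.P319.Ev.IA

/-- the bound with no zero in the disc of radius `R` -/
theorem bndR : BndRStmt := by
  obtain ⟨C, hC2, h⟩ := L_ratio
  refine ⟨6 * C, by linarith, fun r _ χ hχ d R h0 h1 hR0 hR1 hz k => ?_⟩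
  have hr1 : 1 ≤ r := Nat.one_le_iff_ne_zero.2 (NeZero.ne r)
  have hLL := one_le_LL hr1
  have hsub : ball ((1 + d : ℝ) : ℂ) R ⊆ closedBall ((1 + d : ℝ) : ℂ) (1 / 2) :=
    ball_subset_closedBall.trans (closedBall_subset_closedBall hR1)
  have h3 := coeff_bound (F := LFunction χ) (c := ((1 + d : ℝ) : ℂ)) (R := R) (M := C * LL r)
    (differentiable_LFunction hχ).differentiableOn hR0 hz (by positivity)
    (fun z hzb => (h r χ hχ d h0 (by linarith) z (hsub hzb)).trans (by
      have := norm_nonneg (LFunction χ ((1 + d : ℝ) : ℂ))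
      gcongr
      linarith)) k
  rw [norm_Schi χ k h0, div_le_iff₀ (by exact_mod_cast k.factorial_pos)]
  refine h3.trans ?_
  rw [mul_comm]
  have h5 : (0 : ℝ) < k.factorial := by exact_mod_cast k.factorial_pos
  refine mul_le_mul_of_nonneg_right (le_of_eq ?_) h5.le
  ring

/-- the bound with one zero in the disc of radius `R` -/
theorem bndOneR : BndOneRStmt := by
  obtain ⟨C, hC2, h⟩ := L_ratio
  refine ⟨6 * C, by linarith, fun r _ χ hχ d R h0 h1 hR0 hR1 a ha hLa hz k => ?_⟩
  have hr1 : 1 ≤ r := Nat.one_le_iff_ne_zero.2 (NeZero.ne r)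
  have hLL := one_le_LL hr1
  set c : ℂ := ((1 + d : ℝ) : ℂ) with hc
  have hsub : ball c R ⊆ closedBall c (1 / 2) :=
    ball_subset_closedBall.trans (closedBall_subset_closedBall hR1)
  have hLd := differentiable_LFunction hχ
  set g := dslope (LFunction χ) a with hg
  have hgd : Differentiable ℂ g := by
    rw [← differentiableOn_univ, hg, Complex.differentiableOn_dslope Filter.univ_mem]
    exact hLd.differentiableOn
  have he : ∀ z, LFunction χ z = (z - a) * g z := by
    intro z
    have := sub_smul_dslope (LFunction χ) a z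
    rw [hLa, sub_zero, smul_eq_mul] at this
    exact this.symm
  have hgn : ∀ z ∈ ball c R, g z ≠ 0 := hz
  have hca : ‖c - a‖ ≤ 1 / 4 := by
    have : c - a = (d : ℂ) - (a - 1) := by rw [hc]; push_cast; ring
    rw [this]
    refine (norm_sub_le _ _).trans ?_
    rw [Complex.norm_real, Real.norm_eq_abs, abs_of_pos h0]
    linarith
  have hca0 : c - a ≠ 0 := by
    intro h
    have h3 := zero_re_lt hχ hLa
    rw [← sub_eq_zero.1 h, hc, Complex.ofReal_re] at h3
    linarith
  have hcc : ‖LFunction χ c‖ ≤ ‖g c‖ := by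
    rw [he c, norm_mul]
    have := norm_nonneg (g c)
    nlinarith
  have hgB : ∀ z ∈ closedBall c (1 / 2), ‖g z‖ ≤ Real.exp (C * LL r) * ‖g c‖ := by
    intro z hz
    have hcl : closure (ball c (1 / 2 : ℝ)) = closedBall c (1 / 2) := closure_ball c (by norm_num)
    refine Complex.norm_le_of_forall_mem_frontier_norm_le (U := ball c (1 / 2)) isBounded_ball
      hgd.diffContOnCl ?_ (by rw [hcl]; exact hz)
    intro w hw
    rw [frontier_ball c (by norm_num)] at hw
    have hwc : ‖w - c‖ = 1 / 2 := by simpa [dist_eq_norm] using hw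
    have h3 := h r χ hχ d h0 (by linarith) w (sphere_subset_closedBall hw)
    have h4 : 1 / 4 ≤ ‖w - a‖ := by
      have h5 : ‖w - c‖ ≤ ‖w - a‖ + ‖c - a‖ := by
        have : w - c = (w - a) - (c - a) := by ring
        rw [this]
        exact norm_sub_le _ _
      linarith
    rw [he w, norm_mul] at h3
    have h5 := norm_nonneg (g w)
    have h6 : Real.exp (C * LL r) * (‖LFunction χ c‖ / 4) ≤
        Real.exp (C * LL r) * (‖g c‖ / 4) := by gcongr
    nlinarith
  have h3 := coeff_bound (F := g) (c := c) (R := R) (M := C * LL r)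
    hgd.differentiableOn hR0 hgn (by positivity)
    (fun z hzb => hgB z (hsub hzb)) k
  have hcb : c ∈ ball c R := mem_ball_self hR0
  have hsplit : iteratedDeriv k (fun z => deriv (LFunction χ) z / LFunction χ z) c =
      iteratedDeriv k (fun z : ℂ => (z - a)⁻¹) c + iteratedDeriv k (fun z => deriv g z / g z) c := by
    rw [← iteratedDeriv_fun_add]
    · refine Filter.EventuallyEq.iteratedDeriv_eq k ?_
      have hne : {z : ℂ | z - a ≠ 0} ∈ nhds c :=
        (isOpen_ne_fun (by fun_prop) continuous_const).mem_nhds hca0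
      filter_upwards [isOpen_ball.mem_nhds hcb, hne] with z hz hza
      have hgz := hgn z hz
      have hderiv : deriv (LFunction χ) z = g z + (z - a) * deriv g z := by
        have h5 : HasDerivAt (fun z => (z - a) * g z) (1 * g z + (z - a) * deriv g z) z :=
          ((hasDerivAt_id z).sub_const a).mul (hgd z).hasDerivAt
        have h6 : LFunction χ = fun z => (z - a) * g z := funext he
        rw [h6, h5.deriv, one_mul]
      rw [hderiv, he z]
      have hza' : z - a ≠ 0 := hza
      field_simp
    · have : AnalyticAt ℂ (fun z : ℂ => (z - a)⁻¹) c :=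
        (analyticAt_id.sub analyticAt_const).inv hca0
      exact this.contDiffAt
    · have h5 : AnalyticAt ℂ g c := hgd.analyticAt c
      exact (h5.deriv.div h5 (hgn c hcb)).contDiffAt
  rw [norm_Schi χ k h0, ← hc, hsplit, div_le_iff₀ (by exact_mod_cast k.factorial_pos)]
  refine (norm_add_le _ _).trans ?_
  rw [norm_iter_inv]
  have h5 : (0 : ℝ) < k.factorial := by exact_mod_cast k.factorial_pos
  rw [add_mul]
  refine add_le_add (le_of_eq (by field_simp)) ?_
  refine h3.trans ?_
  rw [mul_comm]
  refine mul_le_mul_of_nonneg_right (le_of_eq ?_) h5.le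
  ring

end Vale.Agent.P319.S2.NT
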