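import Vale.Agent.P319.SC.QL.H811.Den
import Vale.Agent.P319.S2.NT.QIface12

/-! P319, block S2, QL12-D: few characters modulo `r` have a zero near `1` (after QL2-D by
helper811). -/

set_option linter.all false

namespace Vale.Agent.P319.S2.NT

open Vale.Agent.P319.Ev.IA Vale.Agent.P319.SC.QL.H811

theorem one_le_lam {r : ℕ} (hr : 1 ≤ LL r) : 1 ≤ lam r := Real.one_le_rpow hr (by norm_num)

theorem lam_pow {r : ℕ} (hr : 0 ≤ LL r) : lam r ^ 2 = LL r := by
  unfold lam
  rw [← Real.rpow_natCast, ← Real.rpow_mul hr]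
  norm_num

/-- **QL12-D** -/
theorem den : DenStmt := by
  intro A hA
  set K : ℝ := 64 * (1 + 8 * A) ^ 2 with hK
  have hK0 : 0 < K := by positivity
  refine ⟨8 * A + 11, max 4096 ⌈Real.exp ((max (16 * A) K) ^ 2)⌉₊, ?_⟩
  intro r _ hr hr0 S hS
  have hr1 : 4096 ≤ r := (le_max_left _ _).trans hr0
  have hr2 : Real.exp ((max (16 * A) K) ^ 2) ≤ r := by
    refine (Nat.le_ceil _).trans ?_
    exact_mod_cast (le_max_right _ _).trans hr0
  have hr3 : (0 : ℝ) < r := (Real.exp_pos _).trans_le hr2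
  have hr4 : (1 : ℝ) ≤ r := by exact_mod_cast hr.one_lt.le
  have hlog : (max (16 * A) K) ^ 2 ≤ Real.log r := by
    rw [Real.le_log_iff_exp_le hr3]
    exact hr2
  have hlog0 : 0 ≤ Real.log r := Real.log_nonneg hr4
  set l := LL r with hl
  have hll : l = 1 + Real.log r := rfl
  have hl1 : 1 ≤ l := by rw [hll]; linarith
  have hl0 : 0 < l := by linarith
  set t := lam r with ht
  have ht1 : 1 ≤ t := one_le_lam hl1
  have ht0 : 0 < t := by linarith
  have ht3 : t ^ 2 = l := lam_pow hl0.le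
  have htm : max (16 * A) K ≤ t := by
    have h1 : (max (16 * A) K) ^ 2 ≤ t ^ 2 := by rw [ht3, hll]; linarith
    exact (pow_le_pow_iff_left₀ (by positivity) ht0.le (by norm_num)).1 h1
  have htA : 16 * A ≤ t := (le_max_left _ _).trans htm
  have htK : K ≤ t := (le_max_right _ _).trans htm
  set η := A * t / l with hη
  have hη0 : 0 < η := by positivity
  have hηl : η * l = A * t := by
    rw [hη]
    field_simp
  have hη1 : η ≤ 1 / 16 := by
    rw [hη, div_le_iff₀ hl0, ← ht3]
    nlinarith [mul_le_mul_of_nonneg_right htA ht0.le]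
  have hcount := count lapp r hr η hη0 hη1 (small_of r hr1 η hη0 hη1) S hS
  refine hcount.trans ?_
  -- the bound for `T ^ η`
  have hT : ((r ^ 2 * r ^ 2 : ℕ) : ℝ) ^ η ≤ Real.exp (4 * A * t) := by
    have h1 : ((r ^ 2 * r ^ 2 : ℕ) : ℝ) = (r : ℝ) ^ (4 : ℝ) := by
      push_cast
      rw [← pow_add]
      norm_cast
    rw [h1, ← Real.rpow_mul hr3.le, Real.rpow_def_of_pos hr3, Real.exp_le_exp]
    have h2 : Real.log r * η ≤ A * t := by
      rw [← hηl, mul_comm]
      exact mul_le_mul_of_nonneg_left (by rw [hll]; linarith) hη0.le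
    nlinarith
  have hG : 1 + 2 * η * (1 + 4 * Real.log r) ≤ (1 + 8 * A) * t := by
    have h1 : 1 + 4 * Real.log r ≤ 4 * l := by rw [hll]; linarith
    have h2 : 2 * η * (1 + 4 * Real.log r) ≤ 8 * (A * t) := by
      rw [← hηl]
      nlinarith [mul_le_mul_of_nonneg_left h1 hη0.le]
    nlinarith
  have hG0 : 0 ≤ 1 + 2 * η * (1 + 4 * Real.log r) := by positivity
  have h7 : ((r ^ 2 * r ^ 2 : ℕ) : ℝ) ^ η * (1 + 2 * η * (1 + 4 * Real.log r)) ≤
      Real.exp (4 * A * t) * ((1 + 8 * A) * t) :=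
    mul_le_mul hT hG hG0 (by positivity)
  have h8 : t ≤ Real.exp t := by
    have := Real.add_one_le_exp t
    linarith
  calc 4 * (((r ^ 2 * r ^ 2 : ℕ) : ℝ) ^ η * (1 + 2 * η * (1 + 4 * Real.log r))) ^ 2 *
        (16 * (1 + Real.log r) ^ 4)
      ≤ 4 * (Real.exp (4 * A * t) * ((1 + 8 * A) * t)) ^ 2 * (16 * l ^ 4) := by
        refine mul_le_mul ?_ (by rw [hll]) (by positivity) (by positivity)
        refine mul_le_mul_of_nonneg_left ?_ (by norm_num)
        exact pow_le_pow_left₀ (by positivity) h7 2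
    _ = K * (Real.exp (8 * A * t) * t ^ 10) := by
        have e1 : Real.exp (4 * A * t) ^ 2 = Real.exp (8 * A * t) := by
          rw [← Real.exp_nat_mul]
          congr 1
          push_cast
          ring
        rw [hK, ← e1, ← ht3]
        ring
    _ ≤ t * (Real.exp (8 * A * t) * t ^ 10) := mul_le_mul_of_nonneg_right htK (by positivity)
    _ = Real.exp (8 * A * t) * t ^ 11 := by ring
    _ ≤ Real.exp (8 * A * t) * (Real.exp t) ^ 11 :=
        mul_le_mul_of_nonneg_left (pow_le_pow_left₀ ht0.le h8 11) (by positivity)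
    _ = Real.exp ((8 * A + 11) * t) := by
        rw [← Real.exp_nat_mul, ← Real.exp_add]
        congr 1
        push_cast
        ring

end Vale.Agent.P319.S2.NT
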