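import Mathlib
import Vale.Agent.P319.SC.QL.H272.Rep
import Vale.Agent.P319.S2.NT.QIface12

/-! P319, block S2, QL12-R: repulsion, the case `lam r = (1 + log r)^(1/2)`. -/

set_option linter.all false

namespace Vale.Agent.P319.S2.NT

open Finset DirichletCharacter Vale.Agent.P319.Ev.IA Vale.Agent Filter Topology
  Vale.Agent.P319.SC.QL.H272

theorem lam_sq {r : ℕ} (hr : 0 ≤ LL r) : lam r ^ 2 = LL r := by
  unfold lam
  rw [← Real.rpow_natCast, ← Real.rpow_mul hr]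
  norm_num

/-- for large `t` everything is small -/
theorem large (A κ : ℝ) (hA : 0 < A) (hκ : 0 < κ) : ∀ᶠ t : ℝ in atTop,
    1 ≤ t ∧ 2 ≤ t ^ 2 ∧ A * t / t ^ 2 ≤ 1 / 2 ∧
      Real.exp (-((64 * A + 2) * t)) < 1 / t ^ 2 ∧
      10 ^ 6 * ((1 + t ^ 2 / κ) * Real.exp (64 * A * t) * (t ^ 2) ^ 5 *
        (24 * (t ^ 2) ^ 2 * Real.exp (-((64 * A + 2) * t)) + 20 * Real.exp (1 - t ^ 2))) < 1 := by
  set C : ℝ := 10 ^ 6 * ((1 + 1 / κ) * 84) with hC
  have hC0 : 0 < C := by rw [hC]; positivity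
  have hC1 : 1 ≤ C := by
    have h1 : (1 : ℝ) ≤ 1 + 1 / κ := by
      have : 0 < 1 / κ := by positivity
      linarith
    rw [hC]
    nlinarith
  have hlim : Tendsto (fun t : ℝ => C * (t ^ (16 : ℝ) * Real.exp (-2 * t))) atTop (𝓝 0) := by
    have h1 := (tendsto_rpow_mul_exp_neg_mul_atTop_nhds_zero 16 2 (by norm_num)).const_mul C
    simpa using h1
  filter_upwards [hlim.eventually (gt_mem_nhds zero_lt_one), eventually_ge_atTop (2 : ℝ),
    eventually_ge_atTop (2 * A), eventually_ge_atTop (64 * A + 3)] with t h1 h2 h3 h4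
  have ht0 : 0 < t := by linarith
  have ht1 : 1 ≤ t := by linarith
  have e1 : t ^ (16 : ℝ) = t ^ 16 := by norm_cast
  rw [e1] at h1
  have ht2 : t ≤ t ^ 2 := by nlinarith
  have ht3 : t * t ≤ t ^ 2 := by nlinarith
  set e := Real.exp (-2 * t) with he
  have he0 : 0 < e := Real.exp_pos _
  have hsplit : Real.exp (64 * A * t) * Real.exp (-((64 * A + 2) * t)) = e := by
    rw [← Real.exp_add, he]
    congr 1
    ring
  have hle : Real.exp (-((64 * A + 2) * t)) ≤ e := by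
    rw [he]
    apply Real.exp_le_exp.2
    nlinarith
  have e4 : Real.exp (1 - t ^ 2) ≤ 3 * Real.exp (-((64 * A + 2) * t)) := by
    have h7 : Real.exp (1 - t ^ 2) = Real.exp 1 * Real.exp (-t ^ 2) := by
      rw [← Real.exp_add]; congr 1
    rw [h7]
    have h8 : Real.exp 1 ≤ 3 := by have := Real.exp_one_lt_d9; linarith
    have h9 : Real.exp (-t ^ 2) ≤ Real.exp (-((64 * A + 2) * t)) := by
      apply Real.exp_le_exp.2
      have h10 : (64 * A + 2) * t ≤ t * t := by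
        apply mul_le_mul_of_nonneg_right _ ht0.le
        linarith
      linarith
    gcongr
  refine ⟨ht1, by nlinarith, ?_, ?_, ?_⟩
  · rw [div_le_iff₀ (by positivity)]
    nlinarith
  · refine lt_of_le_of_lt hle ?_
    rw [lt_div_iff₀ (by positivity)]
    have h5 : t ^ 2 ≤ t ^ 16 := pow_le_pow_right₀ ht1 (by norm_num)
    calc e * t ^ 2 ≤ e * t ^ 16 := by gcongr
      _ = 1 * (t ^ 16 * e) := by ring
      _ ≤ C * (t ^ 16 * e) := by gcongr
      _ < 1 := h1
  · refine lt_of_le_of_lt ?_ h1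
    have e7 : 1 + t ^ 2 / κ ≤ (1 + 1 / κ) * t ^ 2 := by
      have : t ^ 2 / κ = 1 / κ * t ^ 2 := by ring
      rw [this, add_mul]
      have h5 : 1 ≤ t ^ 2 := one_le_pow₀ ht1
      linarith
    have e8 : 24 * (t ^ 2) ^ 2 * Real.exp (-((64 * A + 2) * t)) + 20 * Real.exp (1 - t ^ 2) ≤
        84 * t ^ 4 * Real.exp (-((64 * A + 2) * t)) := by
      have h5 : 20 * Real.exp (1 - t ^ 2) ≤ 60 * Real.exp (-((64 * A + 2) * t)) := by linarith
      have h6 : Real.exp (-((64 * A + 2) * t)) ≤ t ^ 4 * Real.exp (-((64 * A + 2) * t)) := by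
        have h7 : 1 ≤ t ^ 4 := one_le_pow₀ ht1
        have h8 := Real.exp_pos (-((64 * A + 2) * t))
        nlinarith
      have h9 : (t ^ 2) ^ 2 = t ^ 4 := by ring
      rw [h9]
      linarith
    calc 10 ^ 6 * ((1 + t ^ 2 / κ) * Real.exp (64 * A * t) * (t ^ 2) ^ 5 *
          (24 * (t ^ 2) ^ 2 * Real.exp (-((64 * A + 2) * t)) + 20 * Real.exp (1 - t ^ 2))) ≤
        10 ^ 6 * (((1 + 1 / κ) * t ^ 2) * Real.exp (64 * A * t) * (t ^ 2) ^ 5 *
          (84 * t ^ 4 * Real.exp (-((64 * A + 2) * t)))) := by gcongr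
      _ = C * (t ^ 16 * (Real.exp (64 * A * t) * Real.exp (-((64 * A + 2) * t)))) := by
          rw [hC]; ring
      _ = C * (t ^ 16 * e) := by rw [hsplit]

theorem tendsto_lam : Tendsto (fun r : ℕ => lam r) atTop atTop := by
  have hLL : Tendsto (fun r : ℕ => LL r) atTop atTop :=
    tendsto_atTop_add_const_left _ _ (Real.tendsto_log_atTop.comp tendsto_natCast_atTop_atTop)
  exact (tendsto_rpow_atTop (show (0 : ℝ) < 1 / 2 by norm_num)).comp hLL

/-- **QL12-R**: repulsion -/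
theorem rep : RepStmt := by
  intro A κ hA hκ
  obtain ⟨r₀, hr₀⟩ := eventually_atTop.1 (tendsto_lam.eventually (large A κ hA hκ))
  refine ⟨64 * A + 2, max r₀ 2, by positivity, ?_⟩
  intro r _ hrp hr χ₁ h1 hsq β hβ0 hβ χ hχ ρ hρ hρ0
  obtain ⟨g0, g1, g2, g3, g4⟩ := hr₀ r (le_trans (le_max_left _ _) hr)
  have hr2 : 2 ≤ r := hrp.two_le
  have hr0 : (0 : ℝ) < r := by exact_mod_cast hrp.pos
  have hLL0 : 0 ≤ LL r := by
    have := Real.log_natCast_nonneg r
    rw [LL]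
    linarith
  rw [lam_sq hLL0] at g1 g2 g3 g4
  have hL0 : 0 < LL r := by linarith
  by_contra hcon
  have hcase : χ ≠ χ₁ ∨ κ / LL r ≤ ‖ρ - 1‖ := by
    by_cases hc1 : χ = χ₁
    · right
      by_contra h2
      exact hcon ⟨hc1, not_le.1 h2⟩
    · exact Or.inl hc1
  set K : ℝ := 1 + LL r / κ with hK
  have hK1 : 1 ≤ K := by
    have : 0 < LL r / κ := by positivity
    linarith
  have hcase' : χ ≠ χ₁ ∨ 1 / K ≤ ‖ρ - 1‖ := by
    rcases hcase with h2 | h2
    · exact Or.inl h2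
    · right
      refine le_trans ?_ h2
      rw [div_le_div_iff₀ (by linarith) hL0, one_mul, hK, mul_add, mul_one, mul_div_cancel₀ _ hκ.ne']
      linarith
  have h2 := main_ineq hr2 hsq h1 hχ g2 hρ.le hρ0 hK1 hcase'
  have hβ1 : ‖β - 1‖ < 1 / LL r := lt_of_le_of_lt hβ g3
  have h3 := norm_L_one_le h1 g1 hβ1 hβ0
  have h4 : ‖LFunction χ₁ 1‖ ≤ 24 * LL r ^ 2 * Real.exp (-((64 * A + 2) * lam r)) := by
    refine h3.trans ?_
    gcongr
  have h5 : (20 : ℝ) / r = 20 * Real.exp (1 - LL r) := by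
    rw [LL, show (1 : ℝ) - (1 + Real.log r) = -Real.log r by ring, Real.exp_neg, Real.exp_log hr0]
    ring
  have h6 : Real.exp (A * lam r / LL r * (32 * Real.log r)) ^ 2 ≤
      Real.exp (64 * A * lam r) := by
    rw [← Real.exp_nat_mul]
    apply Real.exp_le_exp.2
    have h7 : Real.log r ≤ LL r := by rw [LL]; linarith
    have h8 : 0 ≤ lam r := by linarith
    calc ((2 : ℕ) : ℝ) * (A * lam r / LL r * (32 * Real.log r)) ≤
          ((2 : ℕ) : ℝ) * (A * lam r / LL r * (32 * LL r)) := by gcongr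
      _ = 64 * A * lam r := by push_cast; field_simp; ring
  have h7 : 10 ^ 6 * (K * Real.exp (A * lam r / LL r * (32 * Real.log r)) ^ 2 * LL r ^ 5 *
      (‖LFunction χ₁ 1‖ + 20 / r)) ≤
      10 ^ 6 * ((1 + LL r / κ) * Real.exp (64 * A * lam r) * LL r ^ 5 *
        (24 * LL r ^ 2 * Real.exp (-((64 * A + 2) * lam r)) +
          20 * Real.exp (1 - LL r))) := by
    rw [← h5]
    gcongr
  linarith

end Vale.Agent.P319.S2.NT
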