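import Mathlib
import Vale.Agent.P319.SC.QL.H884.IA2
import Vale.Agent.P319.S2.NT.Rep12
import Vale.Agent.P319.S2.NT.Den12
import Vale.Agent.P319.S2.NT.ZFI

/-! P319, block S2, QL12-IA: the sum over all nonprincipal characters (after QL2-IA by
helper884), with the zero-free region. -/

set_option linter.all false

namespace Vale.Agent.P319.S2.NT

open Vale.Agent.P319.Ev Vale.Agent.P319.Ev.IA DirichletCharacter Vale.Agent.P319.SC.QL.H884
  Vale.Agent.P319.SC.QL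

/-- for large `l` everything is small -/
theorem large_ia (a c₁ c D ε : ℝ) (ha : 0 < a) (hc : 0 < c) (hc1 : 0 < c₁) (hε : 0 < ε) :
    ∀ᶠ l : ℝ in Filter.atTop,
    1 ≤ l ∧ 2 ≤ l ^ 2 ∧ c₁ ≤ a * l ∧ a * l / l ^ 2 ≤ 1 / 16 ∧ c * l ≤ l ^ 2 ∧
      D * l ^ 2 * (l * l) ≤ Real.exp l ∧ D ≤ Real.exp (l ^ 2) ∧
      Real.exp (-(c * l)) < c₁ / l ^ 2 ∧ 3 * (a * l / l ^ 2) < ε := by
  have h0 : ∀ᶠ t : ℝ in Filter.atTop, |D| * t ^ (7 : ℝ) ≤ Real.exp t := by
    have h := (isLittleO_rpow_exp_pos_mul_atTop (7 : ℝ) (show (0 : ℝ) < 1 by norm_num)).bound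
      (show (0 : ℝ) < 1 / (|D| + 1) by positivity)
    filter_upwards [h, Filter.eventually_ge_atTop (0 : ℝ)] with t ht ht0
    rw [Real.norm_of_nonneg (by positivity), one_mul, Real.norm_of_nonneg (by positivity)] at ht
    have h3 : (|D| + 1) * t ^ (7 : ℝ) ≤ Real.exp t := by
      rw [div_mul_eq_mul_div, one_mul, le_div_iff₀ (by positivity)] at ht
      linarith
    have h4 : 0 ≤ t ^ (7 : ℝ) := by positivity
    linarith
  have h00 : ∀ᶠ t : ℝ in Filter.atTop, t ^ (2 : ℝ) * Real.exp (-c * t) < c₁ :=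
    (tendsto_rpow_mul_exp_neg_mul_atTop_nhds_zero 2 c hc).eventually (gt_mem_nhds hc1)
  filter_upwards [h0, h00, Filter.eventually_ge_atTop (2 : ℝ), Filter.eventually_ge_atTop (c₁ / a),
    Filter.eventually_ge_atTop (16 * a), Filter.eventually_ge_atTop c,
    Filter.eventually_gt_atTop (3 * a / ε)] with l h0 h00 h1 h2 h3 h4 h5
  have hl0 : 0 < l := by linarith
  have hl1 : 1 ≤ l := by linarith
  have hl2 : l ≤ l ^ 2 := by nlinarith
  have e1 : l ^ (7 : ℝ) = l ^ 7 := by norm_cast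
  have e2 : l ^ (2 : ℝ) = l ^ 2 := by norm_cast
  rw [e1] at h0
  rw [e2] at h00
  have hdiv : a * l / l ^ 2 = a / l := by
    field_simp
  refine ⟨hl1, by nlinarith, ?_, ?_, ?_, ?_, ?_, ?_, ?_⟩
  · rw [div_le_iff₀ ha] at h2
    linarith
  · rw [hdiv, div_le_iff₀ hl0]
    linarith
  · rw [pow_two]
    exact mul_le_mul_of_nonneg_right h4 hl0.le
  · have h5 := le_abs_self D
    calc D * l ^ 2 * (l * l) = D * l ^ 4 := by ring
      _ ≤ |D| * l ^ 4 := by gcongr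
      _ ≤ |D| * l ^ 7 := by
          gcongr 1
          exact pow_le_pow_right₀ hl1 (by norm_num)
      _ ≤ _ := h0
  · have h5 := le_abs_self D
    have h6 : (1 : ℝ) ≤ l ^ 7 := one_le_pow₀ hl1
    have h7 : |D| ≤ |D| * l ^ 7 := by
      have := abs_nonneg D
      nlinarith
    have h8 : Real.exp l ≤ Real.exp (l ^ 2) := Real.exp_le_exp.2 hl2
    linarith
  · rw [lt_div_iff₀ (by positivity), mul_comm, ← neg_mul]
    exact h00
  · rw [hdiv]
    rw [div_lt_iff₀ hε] at h5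
    rw [← mul_div_assoc, div_lt_iff₀ hl0]
    linarith

theorem exp_half_le {u : ℝ} (hu0 : 0 < u) (hu1 : u ≤ 1) : Real.exp (u / 2) ≤ 1 + u := by
  have h2 := Real.abs_exp_sub_one_le (x := u / 2) (by rw [abs_of_pos (by positivity)]; linarith)
  rw [abs_of_pos (show 0 < u / 2 by positivity)] at h2
  have h3 := le_abs_self (Real.exp (u / 2) - 1)
  linarith

/-- the gain at the distance `ρ` to the left -/
theorem gain12 {d ρ : ℝ} (hd : 0 < d) (hρ : 0 < ρ) (hρd : ρ ≤ d) (k : ℕ) :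
    ((k : ℝ) + 1) ^ 2 / (d + ρ) ^ (k + 1) ≤
      (d ^ (k + 1))⁻¹ * (32 / (ρ / d) ^ 2 * Real.exp (-(((k : ℝ) + 1) * (ρ / d) / 4))) := by
  set u : ℝ := ρ / d with hu
  have hu0 : 0 < u := by positivity
  have hu1 : u ≤ 1 := by
    rw [hu, div_le_one hd]
    exact hρd
  have h1 := exp_half_le hu0 hu1
  have hdρ : d + ρ = d * (1 + u) := by
    rw [hu]
    field_simp
  set n : ℝ := (k : ℝ) + 1 with hn
  have hn0 : 0 < n := by positivity
  have h2 : Real.exp (n * u / 2) ≤ (1 + u) ^ (k + 1) := by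
    calc Real.exp (n * u / 2) = (Real.exp (u / 2)) ^ (k + 1) := by
          rw [← Real.exp_nat_mul]
          congr 1
          push_cast
          ring
      _ ≤ _ := by gcongr
  have h3 : n ^ 2 * u ^ 2 ≤ 32 * Real.exp (n * u / 4) := by
    have h := Real.quadratic_le_exp_of_nonneg (x := n * u / 4) (by positivity)
    have h4 : 0 ≤ n * u / 4 := by positivity
    nlinarith
  have h5 : 0 < (1 + u) ^ (k + 1) := by positivity
  have h6 : n ^ 2 / (1 + u) ^ (k + 1) ≤ 32 / u ^ 2 * Real.exp (-(n * u / 4)) := by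
    rw [div_le_iff₀ h5]
    have e1 : Real.exp (-(n * u / 4)) * Real.exp (n * u / 2) = Real.exp (n * u / 4) := by
      rw [← Real.exp_add]
      congr 1
      ring
    calc n ^ 2 = n ^ 2 * u ^ 2 / u ^ 2 := by field_simp
      _ ≤ 32 * Real.exp (n * u / 4) / u ^ 2 := by gcongr
      _ = 32 / u ^ 2 * (Real.exp (-(n * u / 4)) * Real.exp (n * u / 2)) := by rw [e1]; ring
      _ ≤ 32 / u ^ 2 * (Real.exp (-(n * u / 4)) * (1 + u) ^ (k + 1)) := by gcongr
      _ = _ := by ring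
  calc n ^ 2 / (d + ρ) ^ (k + 1) = (d ^ (k + 1))⁻¹ * (n ^ 2 / (1 + u) ^ (k + 1)) := by
        rw [hdρ, mul_pow]
        field_simp
    _ ≤ _ := by gcongr

/-- the sum of the small terms -/
theorem est_t2' {a c₁ c l y B D E C K : ℝ} (ha : 0 < a) (hc1 : 0 < c₁) (hl : 1 ≤ l)
    (hly : l ^ 2 = y) (hE0 : 0 ≤ E) (hD : 256 * E * (a / c₁) ^ 2 ≤ D)
    (hE3 : D * y * (l * l) ≤ Real.exp l)
    (hC : 4 * (B + 2 * c + 1) * a / c₁ ≤ C) (hK : C * y ≤ K) :
    Real.exp (B * l) * (E * y * (32 / (c₁ / y / (a * l / y)) ^ 2 *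
      Real.exp (-(K * (c₁ / y / (a * l / y)) / 4)))) ≤ Real.exp (-(2 * (c * l))) / 8 := by
  have hl0 : 0 < l := by linarith
  have hy0 : 0 < y := by rw [← hly]; positivity
  have hu : c₁ / y / (a * l / y) = c₁ / (a * l) := by field_simp
  rw [hu]
  have h1 : Real.exp (-(K * (c₁ / (a * l)) / 4)) ≤ Real.exp (-((B + 2 * c + 1) * l)) := by
    apply Real.exp_le_exp.2
    have h2 : 4 * (B + 2 * c + 1) * a / c₁ * y ≤ K := by
      have : 4 * (B + 2 * c + 1) * a / c₁ * y ≤ C * y := by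
        apply mul_le_mul_of_nonneg_right hC (by linarith)
      linarith
    have h3 : (B + 2 * c + 1) * l =
        (4 * (B + 2 * c + 1) * a / c₁ * y) * (c₁ / (a * l)) / 4 := by
      rw [← hly]
      field_simp
    rw [h3]
    have h4 : 0 ≤ c₁ / (a * l) := by positivity
    have := mul_le_mul_of_nonneg_right h2 h4
    linarith
  have h2 : 32 / (c₁ / (a * l)) ^ 2 = 32 * (a / c₁) ^ 2 * l ^ 2 := by
    field_simp
  have h5 : 256 * E * (a / c₁) ^ 2 * y * l ^ 2 ≤ Real.exp l := by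
    refine le_trans ?_ hE3
    rw [pow_two l]
    gcongr
  calc Real.exp (B * l) * (E * y * (32 / (c₁ / (a * l)) ^ 2 *
          Real.exp (-(K * (c₁ / (a * l)) / 4)))) =
        (256 * E * (a / c₁) ^ 2 * y * l ^ 2) / 8 * (Real.exp (B * l) *
          Real.exp (-(K * (c₁ / (a * l)) / 4))) := by rw [h2]; ring
    _ ≤ Real.exp l / 8 * (Real.exp (B * l) * Real.exp (-((B + 2 * c + 1) * l))) := by gcongr
    _ = Real.exp (-(2 * (c * l))) / 8 := by
        rw [← Real.exp_add, div_mul_eq_mul_div, ← Real.exp_add]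
        congr 2
        ring

theorem est_t1a' {y x c : ℝ} (hy : 2 ≤ y) (hx : x ≤ y) (hc : 8 * c ≤ Real.exp y) :
    c * Real.exp (-(8 * y)) ≤ Real.exp (-(2 * x)) / 8 := by
  have h1 : c * Real.exp (-(8 * y)) ≤ Real.exp y / 8 * Real.exp (-(8 * y)) := by
    gcongr
    linarith
  refine h1.trans ?_
  have h2 : Real.exp y / 8 * Real.exp (-(8 * y)) = Real.exp (-(7 * y)) / 8 := by
    rw [div_mul_eq_mul_div, ← Real.exp_add]
    congr 2
    ring
  rw [h2]
  have h3 : Real.exp (-(7 * y)) ≤ Real.exp (-(2 * x)) := Real.exp_le_exp.2 (by linarith)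
  linarith

theorem est_rC' {y x : ℝ} (hy : 2 ≤ y) (hx : x ≤ y) :
    Real.exp (-(25 * y)) ≤ Real.exp (-(2 * x)) / 4 := by
  have h4 : Real.exp (-(25 * y)) = Real.exp (-(2 * y)) * Real.exp (-(23 * y)) := by
    rw [← Real.exp_add]
    congr 1
    ring
  have h6 : Real.exp (-(23 * y)) ≤ Real.exp (-3) := Real.exp_le_exp.2 (by linarith)
  have h7 := exp_neg_three
  have h8 : Real.exp (-(2 * y)) ≤ Real.exp (-(2 * x)) := Real.exp_le_exp.2 (by linarith)
  have h9 : Real.exp (-(2 * y)) * Real.exp (-(23 * y)) ≤ Real.exp (-(2 * x)) * (1 / 4) := by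
    apply mul_le_mul h8 (by linarith) (Real.exp_pos _).le (Real.exp_pos _).le
  rw [h4]
  linarith

/-- the ball of radius `d + ρ` about `1 + d` lies in the region -/
theorem in_region {d ρ ε : ℝ} (hd : 0 < d) (hε : 2 * d + ρ < ε) {z : ℂ}
    (hz : z ∈ Metric.ball ((1 + d : ℝ) : ℂ) (d + ρ)) : ‖z - 1‖ < ε ∧ 1 - ρ < z.re := by
  have h1 : ‖z - ((1 + d : ℝ) : ℂ)‖ < d + ρ := by simpa [dist_eq_norm] using hz
  constructor
  · have h2 : z - 1 = (z - ((1 + d : ℝ) : ℂ)) + (d : ℂ) := by push_cast; ring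
    rw [h2]
    refine (norm_add_le _ _).trans_lt ?_
    rw [Complex.norm_real, Real.norm_eq_abs, abs_of_pos hd]
    linarith
  · have h2 := Complex.abs_re_le_norm (z - ((1 + d : ℝ) : ℂ))
    rw [Complex.sub_re, Complex.ofReal_re] at h2
    have h3 := neg_abs_le (z.re - (1 + d))
    linarith

/-- **QL12-IA** -/
theorem ia2 (hden : DenStmt) (hrep : RepStmt) (hzfr : ZFStmt) (hbnd : BndRStmt)
    (hone : BndOneRStmt) : IA2Stmt := by
  classical
  obtain ⟨c₀, hc00, hc00', hzf⟩ := zero_free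
  obtain ⟨c₁, ε₀, hc1, hc1', hε0, hε0', hreg⟩ := hzfr
  obtain ⟨CA, hCA, hA⟩ := bound_no_zero
  obtain ⟨CO, hCO, hO⟩ := bound_one_zero
  obtain ⟨C1, hC1, hB1⟩ := hbnd
  obtain ⟨C2, hC2, hB2⟩ := hone
  obtain ⟨c₂, hc2, hfar⟩ := zero_far
  refine ⟨1, one_pos, fun a ha _ => ?_⟩
  obtain ⟨B, rD, hden⟩ := hden (2 * a) (by positivity)
  obtain ⟨c, rR, hc0, hrep⟩ := hrep (2 * a) c₀ (by positivity) hc00
  obtain ⟨D, hD1, hD2, hD3⟩ : ∃ D : ℝ, 256 * (C1 + C2) * (a / c₁) ^ 2 ≤ D ∧ 8 * (CA + CO) ≤ D ∧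
      4 * (CA + CO) / c₂ ^ 2 ≤ D := by
    refine ⟨max (256 * (C1 + C2) * (a / c₁) ^ 2) (max (8 * (CA + CO)) (4 * (CA + CO) / c₂ ^ 2)),
      le_max_left _ _, (le_max_left _ _).trans (le_max_right _ _),
      (le_max_right _ _).trans (le_max_right _ _)⟩
  obtain ⟨c₃, hc3, hc30, hc31⟩ : ∃ c₃ : ℝ, 0 < c₃ ∧ c₃ ≤ c₀ ∧ c₃ ≤ c₁ :=
    ⟨min c₀ c₁, lt_min hc00 hc1, min_le_left _ _, min_le_right _ _⟩
  obtain ⟨r₁, hr₁⟩ := Filter.eventually_atTop.1
    (tendsto_lam.eventually (large_ia a c₁ c D ε₀ ha hc0 hc1 hε0))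
  obtain ⟨r₂, hr₂⟩ := Filter.eventually_atTop.1
    (tendsto_lam.eventually (large_ia a c₃ c D ε₀ ha hc0 hc3 hε0))
  obtain ⟨C, hC50, hCa⟩ : ∃ C : ℝ, 50 ≤ C ∧ 4 * (B + 2 * c + 1) * a / c₁ ≤ C :=
    ⟨max 50 (4 * (B + 2 * c + 1) * a / c₁), le_max_left _ _, le_max_right _ _⟩
  refine ⟨C, max r₁ (max r₂ (max rD rR)), by linarith, fun r hr hr0 k hk S hS => ?_⟩
  have : NeZero r := ⟨hr.ne_zero⟩
  obtain ⟨hlam, hE5, hE1, hE2, hcl, hE3, hE4, hE6, hE7⟩ := hr₁ r ((le_max_left _ _).trans hr0)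
  obtain ⟨-, -, -, -, -, -, -, hE8, -⟩ :=
    hr₂ r (((le_max_left _ _).trans (le_max_right _ _)).trans hr0)
  have hr1 : 1 ≤ r := hr.one_lt.le
  have hLL0 : 1 ≤ LL r := one_le_LL hr1
  have hly : lam r ^ 2 = LL r := lam_pow (by linarith)
  rw [hly] at hE2 hE3 hE4 hE5 hcl hE6 hE7 hE8
  have hrD : rD ≤ r := (((le_max_left _ _).trans (le_max_right _ _)).trans
    (le_max_right _ _)).trans hr0
  have hrR : rR ≤ r := (((le_max_right _ _).trans (le_max_right _ _)).trans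
    (le_max_right _ _)).trans hr0
  have hLL : 1 ≤ LL r := by linarith
  have hr' : (r : ℝ) ≤ Real.exp (LL r) := by
    have h1 : (0 : ℝ) < r := by exact_mod_cast hr.pos
    rw [LL, ← Real.log_le_iff_le_exp h1]
    linarith
  have hrC := rpow_neg_le hr1 hC50 hE5
  have hrr0 : (0 : ℝ) < r := by exact_mod_cast hr.pos
  have hdena := hden r hr hrD
  have hrepa := hrep r hr hrR
  have hzfa := hzf r
  have hrega := hreg r
  have hfara := hfar r
  have hAa := hA r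
  have hOa := hO r
  have hB1a := hB1 r
  have hB2a := hB2 r
  clear hden hrep hzf hreg hfar hA hO hB1 hB2 hr₁ hr₂
  generalize LL r = y at *
  generalize lam r = l at *
  have hy0 : 0 < y := lt_of_lt_of_le one_pos hLL
  have hl0 : 0 < l := lt_of_lt_of_le one_pos hlam
  have hdA : 2 * a * l / y = 2 * (a * l / y) := by ring
  have hρd : c₁ / y ≤ a * l / y := by gcongr
  have ht2 := est_t2' (B := B) (K := (k : ℝ) + 1) ha hc1 hlam hly (show 0 ≤ C1 + C2 by linarith)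
    hD1 hE3 hCa (by linarith)
  have hd0 : 0 < a * l / y := by positivity
  rw [hdA] at hdena hrepa
  generalize a * l / y = d at *
  have hρ0 : 0 < c₁ / y := by positivity
  have hk1 : 1 ≤ k := by
    have h1 : (1 : ℝ) ≤ k := by
      have h2 : 50 * y ≤ C * y := mul_le_mul_of_nonneg_right hC50 hy0.le
      linarith only [h2, hk, hLL]
    exact_mod_cast h1
  rw [rpow_neg_succ' hd0]
  have h45 : ((4 : ℝ) / 5) ^ (k + 1) ≤ Real.exp (-(10 * y)) :=
    four_fifths hC50 hy0.le hk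
  have hT1 := est_t1 (c := CA + CO) hrr0.le hr' (by linarith)
  have hgain := gain12 hd0 hρ0 hρd k
  generalize ht1 : (CA + CO) * y * Real.exp (-(10 * y)) = t₁ at *
  generalize ht2e : (C1 + C2) * y * (32 / (c₁ / y / d) ^ 2 *
    Real.exp (-(((k : ℝ) + 1) * (c₁ / y / d) / 4))) = t₂ at *
  have hM0 : 0 < (d ^ (k + 1))⁻¹ := by positivity
  have ht10 : 0 ≤ t₁ := by rw [← ht1]; positivity
  have ht20 : 0 ≤ t₂ := by rw [← ht2e]; positivity
  have ht1' : ∀ c : ℝ, 0 ≤ c → c ≤ CA + CO →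
      c * y * ((5 / 4) * d) ^ (-((k : ℝ) + 1)) ≤ (d ^ (k + 1))⁻¹ * t₁ := by
    intro c hc0 hc
    rw [five_fourths hd0, ← ht1]
    calc c * y * ((d ^ (k + 1))⁻¹ * (4 / 5) ^ (k + 1)) =
        (d ^ (k + 1))⁻¹ * (c * y * (4 / 5) ^ (k + 1)) := by ring
      _ ≤ (d ^ (k + 1))⁻¹ * ((CA + CO) * y * Real.exp (-(10 * y))) := by gcongr
  have hnz : ∀ χ : DirichletCharacter ℂ r, χ ≠ 1 →
      (∀ ρ : ℂ, ‖ρ - 1‖ < 2 * d → LFunction χ ρ ≠ 0) → ‖Schi χ k d‖ ≤ (d ^ (k + 1))⁻¹ * t₁ := by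
    intro χ hχ hz
    exact (hAa χ hχ d (2 * d) hd0 (by linarith) le_rfl hz k).trans
      (ht1' CA (by linarith) (by linarith))
  have ht2' : ∀ c : ℝ, 0 ≤ c → c ≤ C1 + C2 →
      c * y * ((k : ℝ) + 1) ^ 2 / (d + c₁ / y) ^ (k + 1) ≤ (d ^ (k + 1))⁻¹ * t₂ := by
    intro c hc0 hc
    have h2 : 0 ≤ ((k : ℝ) + 1) ^ 2 / (d + c₁ / y) ^ (k + 1) := by positivity
    rw [← ht2e]
    calc c * y * ((k : ℝ) + 1) ^ 2 / (d + c₁ / y) ^ (k + 1) =
        c * y * (((k : ℝ) + 1) ^ 2 / (d + c₁ / y) ^ (k + 1)) := by ring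
      _ ≤ (C1 + C2) * y * ((d ^ (k + 1))⁻¹ * (32 / (c₁ / y / d) ^ 2 *
          Real.exp (-(((k : ℝ) + 1) * (c₁ / y / d) / 4)))) := by
        apply mul_le_mul _ hgain h2 (by positivity)
        gcongr
      _ = _ := by ring
  have hT1a : (r : ℝ) * t₁ ≤ Real.exp (-(2 * (c * l))) / 8 :=
    hT1.trans (est_t1a' hE5 hcl (hD2.trans hE4))
  have hq := hrC.trans (est_rC' hE5 hcl)
  have hR0 : 0 < d + c₁ / y := by positivity
  have hR1 : d + c₁ / y ≤ 1 / 2 := by linarith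
  have hR2 : 2 * d + c₁ / y < ε₀ := by linarith
  have hC1n : 0 ≤ C1 := by linarith only [hC1]
  have hC2n : 0 ≤ C2 := by linarith only [hC2]
  have hC1s : C1 ≤ C1 + C2 := by linarith only [hC2]
  have hC2s : C2 ≤ C1 + C2 := by linarith only [hC1]
  have hd2 : d ≤ 1 := by linarith only [hE2]
  by_cases hex : ∃ χ₁ : DirichletCharacter ℂ r, χ₁ ≠ 1 ∧ χ₁ ^ 2 = 1 ∧ ∃ β : ℂ,
      LFunction χ₁ β = 0 ∧ ‖β - 1‖ ≤ Real.exp (-(c * l)) ∧ ‖β - 1‖ < c₀ / y
  · -- a zero extremely close to `1`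
    obtain ⟨χ₁, h11, h12, β, hβ, hβ1, hβ2⟩ := hex
    have hrep' := hrepa χ₁ h11 h12 β hβ hβ1
    have hβ8 : ‖β - 1‖ < 1 / 8 := by
      refine hβ2.trans_le ?_
      rw [div_le_iff₀ (by linarith)]
      linarith
    have hfar' := hfara χ₁ h11 h12 β hβ8 hβ
    obtain ⟨e, he⟩ : ∃ e : ℝ, e = min 1 (c₂ / (r : ℝ) ^ 2) := ⟨_, rfl⟩
    have he1 : e ≤ 1 := by rw [he]; exact min_le_left _ _
    have he2 : e ≤ ‖β - 1‖ := by rw [he]; exact (min_le_right _ _).trans hfar'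
    have he0 : 0 < e := by rw [he]; positivity
    have hlow := est_low hE5 hrr0 hr' (by linarith) hc2 (hD2.trans hE4) (hD3.trans hE4) he
    have hβ2d : ‖β - 1‖ < 2 * d := by
      have := hβ1.trans_lt hE6
      linarith
    refine case1 S χ₁ hM0.le he0.le he1 ht10 ?_ ?_ (hT1.trans hlow.2) (hrC.trans hlow.1)
    · have h1 := hOa χ₁ h11 d (2 * d) hd0 (by linarith) le_rfl (by linarith) β
        hβ2d hβ (by
          intro b hb hb0
          have hLb : LFunction χ₁ b = 0 := by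
            have h2 := sub_smul_dslope (LFunction χ₁) β b
            rw [hb0, smul_zero, hβ, sub_zero] at h2
            exact h2.symm
          have h3 := (hrep' χ₁ h11 b hb hLb).2
          exact (hzfa χ₁ h11).2 β hβ2 hβ b h3 hb0) k
      exact h1.trans (add_le_add (main_term hd0 (by linarith) (zero_re_lt h11 hβ) he0.le he2 he1 k hk1)
        (ht1' CO (by linarith) (by linarith)))
    · intro χ hχ hne
      refine hnz χ (hS χ hχ) fun ρ hρ hL => hne ?_
      exact (hrep' χ (hS χ hχ) ρ hρ hL).1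
  · push Not at hex
    obtain ⟨e, he⟩ : ∃ e : ℝ, e = Real.exp (-(c * l)) := ⟨_, rfl⟩
    have he0 : 0 < e := by rw [he]; exact Real.exp_pos _
    have hle : ∀ x : ℝ, 0 ≤ x → Real.exp (-x) ≤ 1 := fun x hx =>
      Real.exp_le_one_iff.2 (by linarith)
    have he1 : e ≤ 1 := by
      rw [he]
      exact hle _ (by positivity)
    have hee : e ^ 2 = Real.exp (-(2 * (c * l))) := by
      rw [he, ← Real.exp_nat_mul]
      congr 1
      push_cast
      ring
    refine case2 hr S (S.filter fun χ => ∃ ρ : ℂ, ‖ρ - 1‖ < 2 * d ∧ LFunction χ ρ = 0) hS hM0.le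
      (hle _ (by positivity)) ht10 ht20 (w := Real.exp (B * l)) ?_ ?_ ?_ ?_ hT1a ht2 hq
    · refine hdena _ fun χ hχ => ?_
      rw [Finset.mem_filter] at hχ
      exact ⟨hS χ hχ.1, hχ.2⟩
    · intro χ hχ _ hχ2
      have hχ1 := hS χ hχ
      by_cases hz : ∃ z : ℂ, ‖z - 1‖ < ε₀ ∧ 1 - c₁ / y < z.re ∧ LFunction χ z = 0
      · obtain ⟨z, hz1, hz3, hz2⟩ := hz
        have h1 := hB2a χ hχ1 d (d + c₁ / y) hd0 (by linarith) hR0 hR1 z (by linarith) hz2
          (fun w hw => by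
            obtain ⟨hw1, hw2⟩ := in_region hd0 hR2 hw
            exact (hrega χ hχ1).2 z hz1 hz3 hz2 w hw1 hw2) k
        rw [one_div] at h1
        have h2 : e ≤ ‖z - 1‖ := by
          by_contra hlt
          push Not at hlt
          have h5 := hex χ hχ1 hχ2 z hz2 (by rw [← he]; exact hlt.le)
          have h6 : c₃ / y ≤ c₀ / y := div_le_div_of_nonneg_right hc30 hy0.le
          rw [← he] at hE8
          linarith only [h5, h6, hE8, hlt]
        have h3 := main_term hd0 hd2 (zero_re_lt hχ1 hz2) he0.le h2 he1 k hk1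
        rw [hee] at h3
        have h4 := ht2' C2 hC2n hC2s
        linarith only [h1, h3, h4]
      · push Not at hz
        have h1 := hB1a χ hχ1 d (d + c₁ / y) hd0 (by linarith) hR0 hR1
          (fun w hw => by
            obtain ⟨hw1, hw2⟩ := in_region hd0 hR2 hw
            exact hz w hw1 hw2) k
        have h4 := ht2' C1 hC1n hC1s
        have h5 : 0 ≤ (d ^ (k + 1))⁻¹ * (1 - Real.exp (-(2 * (c * l))) / 2) := by
          have h7 := hle (2 * (c * l)) (mul_nonneg two_pos.le (mul_nonneg hc0.le hl0.le))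
          exact mul_nonneg hM0.le (by linarith only [h7])
        linarith only [h1, h4, h5]
    · intro χ hχ _ hχ2
      have hχ1 := hS χ hχ
      have h1 := hB1a χ hχ1 d (d + c₁ / y) hd0 (by linarith) hR0 hR1
        (fun w hw => by
          obtain ⟨hw1, hw2⟩ := in_region hd0 hR2 hw
          exact (hrega χ hχ1).1 hχ2 w hw1 hw2) k
      exact h1.trans (ht2' C1 hC1n hC1s)
    · intro χ hχ h
      refine hnz χ (hS χ hχ) fun ρ hρ hL => h ?_
      rw [Finset.mem_filter]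
      exact ⟨hχ, ρ, hρ, hL⟩

end Vale.Agent.P319.S2.NT
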