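import Mathlib
import Vale.Agent.P319.SC.QL.H660.Q
import Vale.Agent.P319.S2.NT.QIface12
import Vale.Agent.P319.S2.NT.Den12

/-! P319, block S2, number theory, package QL12-Q: `IA2Stmt`, `IBStmt` and `QLStmt` imply
`QL2Stmt` (after QL2-Q by helper660). -/

set_option linter.all false

namespace Vale.Agent.P319.S2.NT

open Vale.Agent.P319.Ev Vale.Agent.P319.Ev.QLC ArithmeticFunction Vale.Agent.P319.SC
open Vale.Agent.P319.Ev.IA (LL)

lemma one_le_lam' {r : ℕ} (hr : 1 ≤ r) : 1 ≤ lam r :=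
  one_le_lam (Vale.Agent.P319.Ev.IA.one_le_LL hr)

lemma lam_le_LL {r : ℕ} (hr : 1 ≤ r) : lam r ≤ LL r := by
  have h1 := one_le_lam' hr
  rw [← lam_pow (by have := Vale.Agent.P319.Ev.IA.one_le_LL hr; linarith : 0 ≤ LL r)]
  nlinarith

/-- The sum of `Λ(n)/n` over `n ≡ 1` modulo `r` in the window is not too small. -/
lemma W_lower' (hIA : IA2Stmt) (hIB : IBStmt) : ∃ (C K : ℝ) (r₀ : ℕ), 1 ≤ C ∧ 1 ≤ K ∧
    ∀ r : ℕ, r.Prime → r₀ ≤ r → ∀ U : ℝ, K * LL r ^ 2 / lam r ≤ U →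
      (r : ℝ) ^ (-C) / r / 4 ≤
        ∑ n ∈ (Finset.Ioc ⌈Real.exp (U / 8)⌉₊ ⌊Real.exp (7 * U)⌋₊).filter (fun n => n % r = 1),
          ArithmeticFunction.vonMangoldt n / n := by
  obtain ⟨a0, ha0, hA⟩ := hIA
  obtain ⟨aB, CB, haB, hCB, hB⟩ := hIB
  obtain ⟨a, hapos, ha1, ha2, ha3⟩ : ∃ a : ℝ, 0 < a ∧ a ≤ a0 ∧ a ≤ aB / 8 ∧
      a ≤ 1 / (16 * CB) :=
    ⟨min a0 (min (aB / 8) (1 / (16 * CB))), lt_min ha0 (lt_min (by positivity) (by positivity)),
      min_le_left _ _, (min_le_right _ _).trans (min_le_left _ _),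
      (min_le_right _ _).trans (min_le_right _ _)⟩
  obtain ⟨C, r₀, hC, hA⟩ := hA a hapos ha1
  have ha16 : a * (16 * CB) ≤ 1 := by rwa [le_div_iff₀ (by positivity)] at ha3
  have ha1' : a ≤ 1 := by
    have : a * 1 ≤ a * (16 * CB) := by
      apply mul_le_mul_of_nonneg_left _ hapos.le
      linarith
    linarith
  have hK : (1 : ℝ) ≤ 5 * (202 + 5 * C) / a := by
    rw [le_div_iff₀ hapos]; linarith
  refine ⟨C, 5 * (202 + 5 * C) / a, r₀, hC, hK, ?_⟩
  intro r hr hr₀ U hU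
  have hr1 : (1 : ℝ) < r := by exact_mod_cast hr.one_lt
  have hr0 : (0 : ℝ) < r := by linarith
  have hLL1 : 1 ≤ LL r := Vale.Agent.P319.Ev.IA.one_le_LL hr.one_lt.le
  have hLL0 : 0 < LL r := by linarith
  have hlam1 : 1 ≤ lam r := one_le_lam' hr.one_lt.le
  have hlam0 : 0 < lam r := by linarith
  have hlamLL : lam r ≤ LL r := lam_le_LL hr.one_lt.le
  set δ : ℝ := a * lam r / LL r with hδdef
  have hδ : 0 < δ := by positivity
  have hδa : δ ≤ a := by
    rw [hδdef, div_le_iff₀ hLL0]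
    exact mul_le_mul_of_nonneg_left hlamLL hapos.le
  have hU0 : 0 < U := lt_of_lt_of_le (by positivity) hU
  have hkU : (⌊U * δ⌋₊ : ℝ) ≤ U * δ := Nat.floor_le (by positivity)
  have hUk : U * δ < ⌊U * δ⌋₊ + 1 := Nat.lt_floor_add_one _
  have hδ16 : δ * (16 * CB) ≤ 1 :=
    le_trans (mul_le_mul_of_nonneg_right hδa (by positivity)) ha16
  have hUδ : 5 * (202 + 5 * C) * LL r ≤ U * δ := by
    have h1 : 5 * (202 + 5 * C) / a * LL r ^ 2 / lam r * δ = 5 * (202 + 5 * C) * LL r := by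
      rw [hδdef]; field_simp
    have h2 : 5 * (202 + 5 * C) / a * LL r ^ 2 / lam r * δ ≤ U * δ :=
      mul_le_mul_of_nonneg_right hU hδ.le
    linarith
  have hm : 5 * (202 + 5 * C) * LL r ≤ ((⌊U * δ⌋₊ + 1 : ℕ) : ℝ) := by
    push_cast
    linarith
  have hk : C * LL r ≤ (⌊U * δ⌋₊ : ℝ) := by
    have h1 : C * LL r + 1 ≤ 5 * (202 + 5 * C) * LL r := by nlinarith
    linarith
  have hB1 := hB δ hδ (by linarith) ⌊U * δ⌋₊
  have hB8 := hB (8 * δ) (by positivity) (by linarith) ⌊U * δ⌋₊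
  have hB7 := hB (δ / 7) (by positivity) (by linarith) ⌊U * δ⌋₊
  have := QL.H660.core' hr hC hCB hU0.le hδ hδ16 hkU hUk hm hB1.1 hB8.1 hB7.1 hB1.2 hB8.2 hB7.2
    (hA r hr hr₀ _ hk)
  exact core_end hr0 (by positivity) hδ (by linarith) this

/-- **Package QL12-Q.** -/
theorem ql2 (hIA : IA2Stmt) (hIB : IBStmt) (hQL : QLStmt) : QL2Stmt := by
  obtain ⟨C, K, r₀, hC, hK, hW⟩ := W_lower' hIA hIB
  intro η0 hη0
  obtain ⟨C₁, hC₁, hold⟩ := hQL η0 hη0
  obtain ⟨η, hη, hη2, hηη⟩ : ∃ η : ℝ, 0 < η ∧ η ≤ 1 / 2 ∧ η ≤ η0 :=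
    ⟨min η0 (1 / 2), lt_min hη0 (by norm_num), min_le_right _ _, min_le_left _ _⟩
  have hlog0 : 0 ≤ Real.log ((r₀ : ℝ) + 1) :=
    Real.log_nonneg (by have : (0 : ℝ) ≤ r₀ := Nat.cast_nonneg _; linarith)
  refine ⟨K + 50000 / η ^ 2 + 16 * (C + 1) / η + C₁ * (1 + Real.log ((r₀ : ℝ) + 1)),
    by positivity, ?_⟩
  intro r hr U hU
  have hr1 : (1 : ℝ) < r := by exact_mod_cast hr.one_lt
  have hr0 : (0 : ℝ) < r := by linarith
  have hLL1 : 1 ≤ LL r := Vale.Agent.P319.Ev.IA.one_le_LL hr.one_lt.le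
  have hLL0 : 0 < LL r := by linarith
  have hlam1 : 1 ≤ lam r := one_le_lam' hr.one_lt.le
  have hlam0 : 0 < lam r := by linarith
  have hlamLL : lam r ≤ LL r := lam_le_LL hr.one_lt.le
  have hA1 : 0 < 50000 / η ^ 2 := by positivity
  have hA2 : 0 < 16 * (C + 1) / η := by positivity
  have hA3 : 0 ≤ C₁ * (1 + Real.log ((r₀ : ℝ) + 1)) := by positivity
  have hq : LL r ≤ LL r ^ 2 / lam r := by
    rw [le_div_iff₀ hlam0]
    nlinarith
  have hq0 : 0 < LL r ^ 2 / lam r := by positivity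
  rw [mul_div_assoc] at hU
  rcases Nat.lt_or_ge r r₀ with hlt | hge
  · refine hold r hr U (le_trans ?_ hU)
    have h1 : lam r ≤ 1 + Real.log ((r₀ : ℝ) + 1) := by
      refine hlamLL.trans ?_
      have : Real.log r ≤ Real.log ((r₀ : ℝ) + 1) := by
        apply Real.log_le_log hr0
        have : (r : ℝ) < r₀ := by exact_mod_cast hlt
        linarith
      unfold LL
      linarith
    have h2 : LL r ^ 2 = lam r * (LL r ^ 2 / lam r) := by field_simp
    calc C₁ * (1 + Real.log r) ^ 2 = C₁ * (lam r * (LL r ^ 2 / lam r)) := by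
          rw [← h2]; rfl
      _ ≤ C₁ * ((1 + Real.log ((r₀ : ℝ) + 1)) * (LL r ^ 2 / lam r)) := by gcongr
      _ = (C₁ * (1 + Real.log ((r₀ : ℝ) + 1))) * (LL r ^ 2 / lam r) := by ring
      _ ≤ _ := by
        apply mul_le_mul_of_nonneg_right _ hq0.le
        linarith
  · have hU1 : K * LL r ^ 2 / lam r ≤ U := by
      refine le_trans ?_ hU
      rw [mul_div_assoc]
      apply mul_le_mul_of_nonneg_right _ hq0.le
      linarith
    have hU2 : 50000 / η ^ 2 ≤ U := by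
      refine le_trans ?_ hU
      calc 50000 / η ^ 2 = 50000 / η ^ 2 * 1 := (mul_one _).symm
        _ ≤ _ := by
          apply mul_le_mul (by linarith) (by linarith) (by norm_num) (by positivity)
    have hU3 : 16 * (C + 1) / η * (1 + Real.log r) ≤ U := by
      refine le_trans ?_ hU
      change 16 * (C + 1) / η * LL r ≤ _
      apply mul_le_mul (by linarith) hq (by positivity) (by positivity)
    exact QL.H660.endgame hr hη hη2 hηη hC hU2 hU3 (hW r hr hge U hU1)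

end Vale.Agent.P319.S2.NT
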