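import Mathlib
import Vale.Agent.P319.SC.QL.H884.NR2
import Vale.Agent.P319.S2.NT.Q12
import Vale.Agent.P319.Ev.T1

/-! P319, block S2: (NR2) from (QL2) and the arithmetic large sieve, exponent `1/2` (after QL2-NR by
helper884). -/

set_option linter.all false

namespace Vale.Agent.P319.S2.NT

open Finset Vale.Agent.P001 Vale.Agent.P319.Ev Vale.Agent.P319.Ev.IA Vale.Agent.P319.SC

lemma one_le_scE12 (r : ℕ) : 1 ≤ scE12 r := by
  unfold scE12
  exact Nat.le_add_left 1 _

lemma nr12_log_ineq (r : ℕ) (hr : 2 ≤ r) :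
    LL r ^ 2 / lam r ≤ 13 * Real.log ((r ^ scE12 r : ℕ) : ℝ) := by
  push_cast
  rw [Real.log_pow]
  have h2a := Real.log_two_gt_d9
  have h2b := Real.log_two_lt_d9
  have hx : Real.log 2 ≤ Real.log r := Real.log_le_log (by norm_num) (by exact_mod_cast hr)
  have hr0 : (0 : ℝ) < r := by
    have : 0 < r := by omega
    exact_mod_cast this
  have hL1 : 1 ≤ Nat.log 2 r := Nat.log_pos (by norm_num) hr
  set L := Nat.log 2 r with hL
  have h3 : (r : ℝ) ≤ 2 ^ (L + 1) := by
    exact_mod_cast (Nat.lt_pow_succ_log_self (b := 2) (by norm_num) r).le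
  have h4 : Real.log r ≤ (L + 1) * Real.log 2 := by
    have := Real.log_le_log hr0 h3
    rw [Real.log_pow] at this
    exact_mod_cast this
  have hL1' : (1 : ℝ) ≤ L := by exact_mod_cast hL1
  have hlam := one_le_lam' (r := r) (by omega)
  have hE1 : (1 : ℝ) ≤ scE12 r := by exact_mod_cast one_le_scE12 r
  have hE2 : (L : ℝ) ^ (1 / 2 : ℝ) ≤ scE12 r := by
    unfold scE12
    rw [← hL]
    push_cast
    have := Nat.le_ceil ((L : ℝ) ^ (1 / 2 : ℝ))
    linarith
  set x := Real.log r with hxdef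
  have hLLx : LL r = 1 + x := rfl
  have hx1 : 0.69 ≤ x := by linarith
  have hLL1 : LL r ≤ 2.5 * x := by rw [hLLx]; linarith
  have hLL0 : 0 < LL r := by rw [hLLx]; linarith
  have hlam12 := lam_pow hLL0.le
  -- `LL / lam ≤ 3 scE12`
  have key : LL r / lam r ≤ 3 * scE12 r := by
    have h5 : LL r ≤ 2.4 * L := by rw [hLLx]; nlinarith
    have h6 : LL r / lam r = LL r ^ (1 / 2 : ℝ) := by
      rw [div_eq_iff (by linarith), lam, ← Real.rpow_add hLL0]
      norm_num
    have h7 : LL r ^ (1 / 2 : ℝ) ≤ (2.4 * L) ^ (1 / 2 : ℝ) :=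
      Real.rpow_le_rpow hLL0.le h5 (by norm_num)
    have h8 : (2.4 * (L : ℝ)) ^ (1 / 2 : ℝ) = 2.4 ^ (1 / 2 : ℝ) * (L : ℝ) ^ (1 / 2 : ℝ) :=
      Real.mul_rpow (by norm_num) (by positivity)
    have h9 : (2.4 : ℝ) ^ (1 / 2 : ℝ) ≤ 2.4 := by
      calc (2.4 : ℝ) ^ (1 / 2 : ℝ) ≤ (2.4 : ℝ) ^ (1 : ℝ) :=
            Real.rpow_le_rpow_of_exponent_le (by norm_num) (by norm_num)
        _ = 2.4 := Real.rpow_one _
    have h10 : 0 ≤ (L : ℝ) ^ (1 / 2 : ℝ) := by positivity
    rw [h6]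
    calc LL r ^ (1 / 2 : ℝ) ≤ 2.4 ^ (1 / 2 : ℝ) * (L : ℝ) ^ (1 / 2 : ℝ) := by rw [← h8]; exact h7
      _ ≤ 2.4 * (L : ℝ) ^ (1 / 2 : ℝ) := by gcongr
      _ ≤ 3 * scE12 r := by nlinarith
  calc LL r ^ 2 / lam r = LL r * (LL r / lam r) := by ring
    _ ≤ (2.5 * x) * (3 * scE12 r) := by
        apply mul_le_mul hLL1 key _ (by linarith)
        have : 0 < lam r := by linarith
        positivity
    _ ≤ 13 * (scE12 r * x) := by nlinarith

open Classical in
/-- the exceptional numbers of size `s` for the prime `r` -/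
noncomputable def nrBad12 (C r s : ℕ) : Finset ℕ :=
  (range (2 ^ s)).filter fun p => ∀ l < (r ^ scE12 r * s) ^ C, l.Prime → l % r = 1 →
    p % l = 0 ∨ p ^ ((l - 1) / r) % l = 1

lemma nr12_param (ql : QL2Stmt) (ε : ℝ) (hε : 0 < ε) (hε1 : ε ≤ 1) : ∃ C : ℕ, 0 < C ∧
    ∀ s : ℕ, 2 ≤ s → ∀ r : ℕ, r.Prime → (r ^ scE12 r * s) ^ C < 2 ^ s →
      (r : ℝ) ≤ (2 : ℝ) ^ ((s : ℝ) * (ε / 8)) ∧
      ∃ y : ℕ, (8 * (s : ℝ)) ^ (4 / ε) ≤ y ∧ (y : ℝ) ≤ (2 : ℝ) ^ ((s : ℝ) * (ε / 8)) ∧
        2 * y < (r ^ scE12 r * s) ^ C ∧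
        (y : ℝ) ^ (1 - ε / 4) ≤
          ((Finset.Ioc y (2 * y)).filter fun l => l.Prime ∧ l % r = 1).card := by
  obtain ⟨C', hC', hQL⟩ := ql (ε / 4) (by positivity)
  set D : ℝ := 91 * C' + 896 / ε with hD
  have hD0 : 0 < D := by positivity
  set C : ℕ := ⌈8 * D / ε⌉₊ + ⌈D⌉₊ + ⌈8 / ε⌉₊ + 2 with hC
  have hCa : 8 * D / ε ≤ C := by
    rw [hC]
    push_cast
    have h1 := Nat.le_ceil (8 * D / ε)
    have h2 : (0 : ℝ) ≤ ⌈D⌉₊ := Nat.cast_nonneg _
    have h3 : (0 : ℝ) ≤ ⌈8 / ε⌉₊ := Nat.cast_nonneg _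
    linarith
  have hCb : D + 2 ≤ C := by
    rw [hC]
    push_cast
    have h1 := Nat.le_ceil D
    have h2 : (0 : ℝ) ≤ ⌈8 * D / ε⌉₊ := Nat.cast_nonneg _
    have h3 : (0 : ℝ) ≤ ⌈8 / ε⌉₊ := Nat.cast_nonneg _
    linarith
  have hCc : 8 / ε ≤ C := by
    rw [hC]
    push_cast
    have h1 := Nat.le_ceil (8 / ε)
    have h2 : (0 : ℝ) ≤ ⌈8 * D / ε⌉₊ := Nat.cast_nonneg _
    have h3 : (0 : ℝ) ≤ ⌈D⌉₊ := Nat.cast_nonneg _
    linarith
  refine ⟨C, by omega, ?_⟩
  intro s hs r hr hR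
  have hs' : (2 : ℝ) ≤ s := by exact_mod_cast hs
  have hr2 : (2 : ℝ) ≤ r := by exact_mod_cast hr.two_le
  set B : ℕ := r ^ scE12 r with hB
  have hm : 1 ≤ scE12 r := one_le_scE12 r
  have hrB : r ≤ B := by
    calc r = r ^ 1 := (pow_one r).symm
      _ ≤ r ^ scE12 r := Nat.pow_le_pow_right hr.pos hm
  have hB2 : (2 : ℝ) ≤ (B : ℝ) := hr2.trans (by exact_mod_cast hrB)
  have hB0 : (0 : ℝ) < (B : ℝ) := by linarith
  have hs0 : (0 : ℝ) < s := by linarith
  have hlogB : 0 ≤ Real.log B := Real.log_nonneg (by linarith)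
  have hlogs : Real.log 2 ≤ Real.log s := Real.log_le_log (by norm_num) hs'
  have h2a := Real.log_two_gt_d9
  set R : ℕ := B * s with hRdef
  have hlogR : Real.log R = Real.log B + Real.log s := by
    rw [hRdef]
    push_cast
    exact Real.log_mul hB0.ne' hs0.ne'
  have hR0 : (0 : ℝ) < R := by
    rw [hRdef]
    push_cast
    positivity
  have hlogR2 : Real.log 2 ≤ Real.log R := by rw [hlogR]; linarith
  have hCR : (C : ℝ) * Real.log R < s * Real.log 2 := by
    have h1 : (R : ℝ) ^ C < 2 ^ s := by exact_mod_cast hR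
    have h2 := Real.log_lt_log (by positivity) h1
    rwa [Real.log_pow, Real.log_pow] at h2
  have hlog8 : Real.log (8 * s) ≤ 4 * Real.log s := nr_log8 s hs'
  have hlog80 : 0 ≤ Real.log (8 * s) := Real.log_nonneg (by linarith)
  set U : ℝ := C' * (LL r ^ 2 / lam r) + 32 / ε * Real.log (8 * s) with hU
  obtain ⟨y, hy1, hy2, hy3⟩ := hQL r hr U (by
    have : 0 ≤ 32 / ε * Real.log (8 * s) := by positivity
    rw [hU, mul_div_assoc]
    linarith)
  have hyA : (8 * (s : ℝ)) ^ (4 / ε) ≤ y := by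
    refine le_trans ?_ hy1
    rw [Real.rpow_def_of_pos (by linarith)]
    apply Real.exp_le_exp.2
    rw [hU]
    have h1 : 0 ≤ C' * (LL r ^ 2 / lam r) := by
      have hlp := one_le_lam' hr.one_lt.le
      have : 0 ≤ LL r ^ 2 / lam r := div_nonneg (by positivity) (by linarith)
      positivity
    have h2 : Real.log (8 * s) * (4 / ε) = 32 / ε * Real.log (8 * s) / 8 := by ring
    rw [h2]
    linarith
  have hlogineq := nr12_log_ineq r hr.two_le
  rw [← hB] at hlogineq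
  have h7U : 7 * U ≤ D * Real.log R := by
    rw [hU, hD, hlogR]
    exact QL.H884.nr2_7U C' ε _ _ _ _ hC' hε hlogineq hlog8 (by linarith) hlogB
  have hyD : (y : ℝ) ≤ Real.exp (D * Real.log R) := hy2.trans (Real.exp_le_exp.2 h7U)
  have hlogR0 : 0 < Real.log R := by linarith
  have hDs : D * Real.log R ≤ s * (ε / 8) * Real.log 2 := by
    have h1 : D ≤ ε / 8 * C := by
      rw [div_le_iff₀ hε] at hCa
      linarith
    calc D * Real.log R ≤ ε / 8 * C * Real.log R := mul_le_mul_of_nonneg_right h1 hlogR0.le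
      _ = ε / 8 * (C * Real.log R) := by ring
      _ ≤ ε / 8 * (s * Real.log 2) := mul_le_mul_of_nonneg_left hCR.le (by positivity)
      _ = _ := by ring
  have hys : (y : ℝ) ≤ (2 : ℝ) ^ ((s : ℝ) * (ε / 8)) := by
    refine hyD.trans ?_
    rw [Real.rpow_def_of_pos (by norm_num)]
    apply Real.exp_le_exp.2
    linarith
  have h2y : 2 * y < R ^ C := by
    have h1 : (2 : ℝ) * y < (R : ℝ) ^ C := by
      have h2 : (R : ℝ) ^ C = Real.exp (C * Real.log R) := by
        rw [← Real.log_pow, Real.exp_log (by positivity)]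
      rw [h2]
      exact nr_2y D C _ y hlogR2 hCb hyD
    exact_mod_cast h1
  refine ⟨?_, y, hyA, hys, h2y, hy3⟩
  · have h1 : Real.log r ≤ Real.log R := by
      rw [hlogR]
      have h2 : Real.log r ≤ Real.log B :=
        Real.log_le_log (by linarith) (by exact_mod_cast hrB)
      linarith
    have h2 : Real.log R ≤ s * (ε / 8) * Real.log 2 := by
      have h3 : 1 ≤ ε / 8 * C := by
        rw [div_le_iff₀ hε] at hCc
        linarith
      calc Real.log R = 1 * Real.log R := (one_mul _).symm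
        _ ≤ ε / 8 * C * Real.log R := mul_le_mul_of_nonneg_right h3 hlogR0.le
        _ = ε / 8 * (C * Real.log R) := by ring
        _ ≤ ε / 8 * (s * Real.log 2) := mul_le_mul_of_nonneg_left hCR.le (by positivity)
        _ = _ := by ring
    have hr0 : (0 : ℝ) < r := by linarith
    rw [Real.rpow_def_of_pos (by norm_num), ← Real.exp_log hr0]
    apply Real.exp_le_exp.2
    linarith

lemma nr12_card (ε : ℝ) (hε : 0 < ε) (hε1 : ε ≤ 1) (C s r y : ℕ) (hs : 2 ≤ s) (hr : r.Prime)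
    (hyA : (8 * (s : ℝ)) ^ (4 / ε) ≤ y) (hys : (y : ℝ) ≤ (2 : ℝ) ^ ((s : ℝ) * (ε / 8)))
    (h2y : 2 * y < (r ^ scE12 r * s) ^ C)
    (hy3 : (y : ℝ) ^ (1 - ε / 4) ≤
      ((Finset.Ioc y (2 * y)).filter fun l => l.Prime ∧ l % r = 1).card) :
    ((nrBad12 C r s).card : ℝ) ≤ 4 * cLS * (2 : ℝ) ^ ((s : ℝ) * (1 / 2 + 3 * ε / 8)) := by
  set L := (Finset.Ioc y (2 * y)).filter fun l => l.Prime ∧ l % r = 1 with hL
  have hinj : Function.Injective (fun p : ℕ => (p : ℤ)) := Nat.cast_injective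
  have hb := nr_bound ε hε hε1 s y r hr hs hyA L (by
      intro l hl
      rw [hL, Finset.mem_filter, Finset.mem_Ioc] at hl
      exact ⟨hl.2.1, hl.2.2, hl.1.2⟩) hy3
    ((nrBad12 C r s).image (fun p : ℕ => (p : ℤ))) (by
      intro n hn
      rw [Finset.mem_image] at hn
      obtain ⟨p, hp, rfl⟩ := hn
      unfold nrBad12 at hp
      rw [Finset.mem_filter, Finset.mem_range] at hp
      refine ⟨by positivity, ?_⟩
      exact_mod_cast hp.1) (by
      intro n hn l hl
      rw [Finset.mem_image] at hn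
      obtain ⟨p, hp, rfl⟩ := hn
      unfold nrBad12 at hp
      rw [Finset.mem_filter] at hp
      rw [hL, Finset.mem_filter, Finset.mem_Ioc] at hl
      have hlt : l < (r ^ scE12 r * s) ^ C := lt_of_le_of_lt hl.1.2 h2y
      have hl1 := hl.2.1.one_lt
      rcases hp.2 l hlt hl.2.1 hl.2.2 with h | h
      · left
        push_cast
        exact (ZMod.natCast_eq_zero_iff p l).2 (Nat.dvd_of_mod_eq_zero h)
      · right
        have h1 : ((p ^ ((l - 1) / r) : ℕ) : ZMod l) = ((1 : ℕ) : ZMod l) := by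
          rw [ZMod.natCast_eq_natCast_iff', h, Nat.mod_eq_of_lt hl1]
        push_cast at h1 ⊢
        exact h1)
  rw [Finset.card_image_of_injective _ hinj] at hb
  refine hb.trans ?_
  have hc := cLS_pos
  calc 4 * cLS * y * (2 : ℝ) ^ ((s : ℝ) * (1 / 2 + ε / 4))
      ≤ 4 * cLS * (2 : ℝ) ^ ((s : ℝ) * (ε / 8)) * (2 : ℝ) ^ ((s : ℝ) * (1 / 2 + ε / 4)) := by
        apply mul_le_mul_of_nonneg_right _ (by positivity)
        exact mul_le_mul_of_nonneg_left hys (by positivity)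
    _ = _ := by
        rw [mul_assoc, ← Real.rpow_add (by norm_num)]
        congr 2
        ring

open Classical in
/-- all exceptional numbers of size `s` -/
noncomputable def nrT12 (C s : ℕ) : Finset ℕ :=
  ((range (2 ^ s)).filter fun r => r.Prime ∧ (r ^ scE12 r * s) ^ C < 2 ^ s).biUnion
    fun r => nrBad12 C r s

lemma nr12_T (ql : QL2Stmt) (ε : ℝ) (hε : 0 < ε) (hε1 : ε ≤ 1) : ∃ C : ℕ, 0 < C ∧
    ∀ s : ℕ, 2 ≤ s → ((nrT12 C s).card : ℝ) ≤ 4 * cLS * (2 : ℝ) ^ ((s : ℝ) * (1 / 2 + ε / 2)) := by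
  obtain ⟨C, hC, h⟩ := nr12_param ql ε hε hε1
  refine ⟨C, hC, ?_⟩
  intro s hs
  classical
  set x : ℝ := (2 : ℝ) ^ ((s : ℝ) * (ε / 8)) with hx
  have hx0 : 0 < x := by positivity
  set A : Finset ℕ :=
    (range (2 ^ s)).filter fun r => r.Prime ∧ (r ^ scE12 r * s) ^ C < 2 ^ s with hA
  have hAc : (A.card : ℝ) ≤ x := by
    have h1 : A ⊆ Finset.Icc 1 ⌊x⌋₊ := by
      intro r hr
      rw [hA, Finset.mem_filter] at hr
      rw [Finset.mem_Icc]
      exact ⟨hr.2.1.pos, Nat.le_floor (h s hs r hr.2.1 hr.2.2).1⟩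
    have h2 := Finset.card_le_card h1
    rw [Nat.card_Icc, Nat.add_sub_cancel] at h2
    calc (A.card : ℝ) ≤ (⌊x⌋₊ : ℝ) := by exact_mod_cast h2
      _ ≤ x := Nat.floor_le hx0.le
  have hc := cLS_pos
  set b : ℝ := 4 * cLS * (2 : ℝ) ^ ((s : ℝ) * (1 / 2 + 3 * ε / 8)) with hb
  have hb0 : 0 < b := by positivity
  have h1 : ((nrT12 C s).card : ℝ) ≤ A.card * b := by
    have h2 : (nrT12 C s).card ≤ ∑ r ∈ A, (nrBad12 C r s).card := Finset.card_biUnion_le
    calc ((nrT12 C s).card : ℝ) ≤ ((∑ r ∈ A, (nrBad12 C r s).card : ℕ) : ℝ) := by exact_mod_cast h2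
      _ = ∑ r ∈ A, ((nrBad12 C r s).card : ℝ) := by push_cast; rfl
      _ ≤ ∑ r ∈ A, b := by
          apply Finset.sum_le_sum
          intro r hr
          rw [hA, Finset.mem_filter] at hr
          obtain ⟨_, y, hy1, hy2, hy3, hy4⟩ := h s hs r hr.2.1 hr.2.2
          exact nr12_card ε hε hε1 C s r y hs hr.2.1 hy1 hy2 hy3 hy4
      _ = A.card * b := by rw [Finset.sum_const, nsmul_eq_mul]
  refine h1.trans ((mul_le_mul_of_nonneg_right hAc hb0.le).trans (le_of_eq ?_))
  rw [hb, hx]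
  calc (2 : ℝ) ^ ((s : ℝ) * (ε / 8)) * (4 * cLS * (2 : ℝ) ^ ((s : ℝ) * (1 / 2 + 3 * ε / 8)))
      = 4 * cLS * ((2 : ℝ) ^ ((s : ℝ) * (ε / 8)) * (2 : ℝ) ^ ((s : ℝ) * (1 / 2 + 3 * ε / 8))) := by
        ring
    _ = _ := by
        rw [← Real.rpow_add (by norm_num)]
        congr 2
        ring

theorem nr2_of (ql : QL2Stmt) : NR2Stmt := by
  intro ε0 hε0
  classical
  set ε : ℝ := min ε0 1 with hεdef
  have hε : 0 < ε := lt_min hε0 one_pos
  have hε1 : ε ≤ 1 := min_le_right _ _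
  have hεε : ε ≤ ε0 := min_le_left _ _
  obtain ⟨C, hC, hT⟩ := nr12_T ql ε hε hε1
  have hc := cLS_pos
  set E : Set ℕ := {p | p.Prime ∧ ∃ r : ℕ, r.Prime ∧
    (r ^ scE12 r * Nat.size p) ^ C < 2 ^ Nat.size p ∧ p ∈ nrBad12 C r (Nat.size p)} with hE
  set C2 : ℕ := max C ⌈64 * cLS / ε⌉₊ with hC2
  refine ⟨C2, E, ?_, ?_⟩
  · intro X
    rcases Nat.eq_zero_or_pos X with hX | hX
    · have h1 : E ∩ Set.Iic X = ∅ := by
        ext p
        simp only [Set.mem_inter_iff, Set.mem_Iic, Set.mem_empty_iff_false, iff_false, not_and]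
        intro hp hpX
        have := hp.1.pos
        omega
      rw [h1, Set.ncard_empty]
      push_cast
      positivity
    · set S := Nat.size X with hS
      have hX1 : (1 : ℝ) ≤ X := by exact_mod_cast hX
      have hsub : E ∩ Set.Iic X ⊆ (((Finset.Icc 2 S).biUnion fun s => nrT12 C s : Finset ℕ) : Set ℕ) := by
        rintro p ⟨⟨hp, r, hr, hrC, hbad⟩, hpX⟩
        rw [Finset.mem_coe, Finset.mem_biUnion]
        refine ⟨Nat.size p, ?_, ?_⟩
        · rw [Finset.mem_Icc]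
          refine ⟨?_, Nat.size_le_size hpX⟩
          have h2 : Nat.size 2 ≤ Nat.size p := Nat.size_le_size hp.two_le
          have h3 : Nat.size 2 = 2 := by decide
          omega
        · unfold nrT12
          rw [Finset.mem_biUnion]
          refine ⟨r, ?_, hbad⟩
          rw [Finset.mem_filter, Finset.mem_range]
          refine ⟨?_, hr, hrC⟩
          have hs1 : 1 ≤ Nat.size p := Nat.size_pos.2 hp.pos
          have hm : 1 ≤ scE12 r := one_le_scE12 r
          have h4 : r ≤ r ^ scE12 r := by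
            calc r = r ^ 1 := (pow_one r).symm
              _ ≤ r ^ scE12 r := Nat.pow_le_pow_right hr.pos hm
          have h5 : r ≤ r ^ scE12 r * Nat.size p := h4.trans (Nat.le_mul_of_pos_right _ hs1)
          have h6 : r ^ scE12 r * Nat.size p ≤ (r ^ scE12 r * Nat.size p) ^ C :=
            Nat.le_self_pow hC.ne' _
          omega
      have h1 : (E ∩ Set.Iic X).ncard ≤ ((Finset.Icc 2 S).biUnion fun s => nrT12 C s).card := by
        rw [← Set.ncard_coe_finset]
        exact Set.ncard_le_ncard hsub (Finset.finite_toSet _)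
      have h2 : ((Finset.Icc 2 S).biUnion fun s => nrT12 C s).card ≤
          ∑ s ∈ Finset.Icc 2 S, (nrT12 C s).card := Finset.card_biUnion_le
      have h3 : ((E ∩ Set.Iic X).ncard : ℝ) ≤
          S * (4 * cLS * (2 : ℝ) ^ ((S : ℝ) * (1 / 2 + ε / 2))) := by
        calc ((E ∩ Set.Iic X).ncard : ℝ) ≤ ((∑ s ∈ Finset.Icc 2 S, (nrT12 C s).card : ℕ) : ℝ) := by
              exact_mod_cast h1.trans h2
          _ = ∑ s ∈ Finset.Icc 2 S, ((nrT12 C s).card : ℝ) := by push_cast; rfl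
          _ ≤ ∑ s ∈ Finset.Icc 2 S, (4 * cLS * (2 : ℝ) ^ ((S : ℝ) * (1 / 2 + ε / 2))) := by
              apply Finset.sum_le_sum
              intro s hs
              rw [Finset.mem_Icc] at hs
              refine (hT s hs.1).trans ?_
              apply mul_le_mul_of_nonneg_left _ (by positivity)
              apply Real.rpow_le_rpow_of_exponent_le (by norm_num)
              apply mul_le_mul_of_nonneg_right _ (by positivity)
              exact_mod_cast hs.2
          _ = ((Finset.Icc 2 S).card : ℝ) * (4 * cLS * (2 : ℝ) ^ ((S : ℝ) * (1 / 2 + ε / 2))) := by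
              rw [Finset.sum_const, nsmul_eq_mul]
          _ ≤ _ := by
              apply mul_le_mul_of_nonneg_right _ (by positivity)
              rw [Nat.card_Icc]
              have : S + 1 - 2 ≤ S := by omega
              exact_mod_cast this
      have h4 : (2 : ℝ) ^ ((S : ℝ) * (1 / 2 + ε)) ≤ 4 * (X : ℝ) ^ (1 / 2 + ε0) := by
        have h5 : (2 : ℝ) ^ S ≤ 2 * X := by
          have hS1 : 1 ≤ S := Nat.size_pos.2 hX
          have h6 : 2 ^ (S - 1) ≤ X := by
            have h7 : S - 1 < Nat.size X := by omega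
            exact Nat.lt_size.1 h7
          have h8 : 2 ^ S = 2 * 2 ^ (S - 1) := by
            conv_lhs => rw [show S = (S - 1) + 1 by omega]
            rw [pow_succ, mul_comm]
          have h9 : 2 ^ S ≤ 2 * X := by omega
          exact_mod_cast h9
        calc (2 : ℝ) ^ ((S : ℝ) * (1 / 2 + ε)) = ((2 : ℝ) ^ S) ^ (1 / 2 + ε) := by
              rw [Real.rpow_mul (by norm_num), Real.rpow_natCast]
          _ ≤ (2 * (X : ℝ)) ^ (1 / 2 + ε) := Real.rpow_le_rpow (by positivity) h5 (by positivity)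
          _ = 2 ^ (1 / 2 + ε) * (X : ℝ) ^ (1 / 2 + ε) := Real.mul_rpow (by norm_num) (by positivity)
          _ ≤ 2 ^ (2 : ℝ) * (X : ℝ) ^ (1 / 2 + ε0) := by
              apply mul_le_mul
              · apply Real.rpow_le_rpow_of_exponent_le (by norm_num)
                linarith
              · apply Real.rpow_le_rpow_of_exponent_le hX1
                linarith
              · positivity
              · positivity
          _ = 4 * (X : ℝ) ^ (1 / 2 + ε0) := by norm_num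
      have h5 := nr_sum ε hε S
      have hX0 : (0 : ℝ) ≤ (X : ℝ) ^ (1 / 2 + ε0) := by positivity
      calc ((E ∩ Set.Iic X).ncard : ℝ)
          ≤ S * (4 * cLS * (2 : ℝ) ^ ((S : ℝ) * (1 / 2 + ε / 2))) := h3
        _ = 4 * cLS * (S * (2 : ℝ) ^ ((S : ℝ) * (1 / 2 + ε / 2))) := by ring
        _ ≤ 4 * cLS * (4 / ε * (2 : ℝ) ^ ((S : ℝ) * (1 / 2 + ε))) :=
            mul_le_mul_of_nonneg_left h5 (by positivity)
        _ ≤ 4 * cLS * (4 / ε * (4 * (X : ℝ) ^ (1 / 2 + ε0))) := by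
            apply mul_le_mul_of_nonneg_left _ (by positivity)
            exact mul_le_mul_of_nonneg_left h4 (by positivity)
        _ = 64 * cLS / ε * (X : ℝ) ^ (1 / 2 + ε0) := by ring
        _ ≤ (C2 : ℝ) * (X : ℝ) ^ (1 / 2 + ε0) := by
            apply mul_le_mul_of_nonneg_right _ hX0
            refine (Nat.le_ceil _).trans ?_
            rw [hC2]
            exact_mod_cast le_max_right _ _
  · intro p hp hpE r hr N hN
    by_cases hpN : p ≤ N
    · exact Or.inl hpN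
    · right
      have hs1 : 1 ≤ Nat.size p := Nat.size_pos.2 hp.pos
      have hR1 : 1 ≤ r ^ scE12 r * Nat.size p :=
        Nat.mul_pos (pow_pos hr.pos _) hs1
      have hCN : (r ^ scE12 r * Nat.size p) ^ C ≤ N :=
        (Nat.pow_le_pow_right hR1 (le_max_left _ _)).trans hN
      have hp2 : p < 2 ^ Nat.size p := Nat.lt_size_self p
      have h1 : (r ^ scE12 r * Nat.size p) ^ C < 2 ^ Nat.size p := by omega
      by_contra hcon
      push Not at hcon
      apply hpE
      refine ⟨hp, r, hr, h1, ?_⟩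
      unfold nrBad12
      rw [Finset.mem_filter, Finset.mem_range]
      refine ⟨hp2, ?_⟩
      intro l hl hlp hlr
      by_cases h2 : p % l = 0
      · exact Or.inl h2
      · exact Or.inr (hcon l (lt_of_lt_of_le hl hCN) hlp hlr h2)

end Vale.Agent.P319.S2.NT
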