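import Mathlib
import Vale.Agent.P319.S2.NT.ZFI

/-! P319, block S2, ZF: the classical zero-free region near the real axis. -/

set_option linter.all false

namespace Vale.Agent.P319.S2.NT

open Complex Metric Set DirichletCharacter ArithmeticFunction Vale.Agent Vale.Agent.P319.Ev.IA

/-- the point `σ + t i` -/
noncomputable def pt (σ t : ℝ) : ℂ := (σ : ℂ) + (t : ℂ) * Complex.I

theorem pt_re (σ t : ℝ) : (pt σ t).re = σ := by simp [pt]

theorem pt_im (σ t : ℝ) : (pt σ t).im = t := by simp [pt]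

/-- `Re Σ χ(n) Λ(n) n^(-s)` -/
noncomputable def VC {r : ℕ} (χ : DirichletCharacter ℂ r) (s : ℂ) : ℝ :=
  (LSeries ((fun n : ℕ => χ (n : ZMod r)) * (fun n : ℕ => (vonMangoldt n : ℂ))) s).re

/-- `Re Σ Λ(n) n^(-s)` -/
noncomputable def VZ (s : ℂ) : ℝ := (LSeries (fun n : ℕ => (vonMangoldt n : ℂ)) s).re

/-- `n^(-i t)` -/
noncomputable def tw (t : ℝ) (n : ℕ) : ℂ := (n : ℂ) ^ (-((t : ℂ) * Complex.I))

theorem norm_tw (t : ℝ) {n : ℕ} (hn : n ≠ 0) : ‖tw t n‖ = 1 := by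
  rw [tw, Complex.norm_natCast_cpow_of_pos (Nat.pos_of_ne_zero hn)]
  have : (-((t : ℂ) * Complex.I)).re = 0 := by simp
  rw [this, Real.rpow_zero]

theorem tw_two (t : ℝ) {n : ℕ} (hn : n ≠ 0) : tw (2 * t) n = tw t n ^ 2 := by
  have h0 : (n : ℂ) ≠ 0 := by exact_mod_cast hn
  rw [tw, tw, pow_two, ← Complex.cpow_add _ _ h0]
  congr 1
  push_cast
  ring

/-- the weight `Λ(n) n^(-σ)` -/
noncomputable def wt (σ : ℝ) (n : ℕ) : ℝ := vonMangoldt n * (n : ℝ) ^ (-σ)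

theorem wt_nonneg (σ : ℝ) (n : ℕ) : 0 ≤ wt σ n :=
  mul_nonneg vonMangoldt_nonneg (by positivity)

theorem pow_pt (σ t : ℝ) {n : ℕ} (hn : n ≠ 0) :
    ((n : ℂ) ^ pt σ t)⁻¹ = (((n : ℝ) ^ (-σ) : ℝ) : ℂ) * tw t n := by
  have h0 : (n : ℂ) ≠ 0 := by exact_mod_cast hn
  have h1 : ((n : ℂ) ^ (σ : ℂ)) = (((n : ℝ) ^ σ : ℝ) : ℂ) := by
    rw [Complex.ofReal_cpow (by positivity)]
    simp
  rw [pt, Complex.cpow_add _ _ h0, h1, tw, Complex.cpow_neg, Real.rpow_neg (by positivity)]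
  push_cast
  rw [mul_inv]

theorem term_chi {r : ℕ} (χ : DirichletCharacter ℂ r) (σ t : ℝ) (n : ℕ) :
    (LSeries.term ((fun n : ℕ => χ (n : ZMod r)) * (fun n : ℕ => (vonMangoldt n : ℂ)))
      (pt σ t) n).re = (χ (n : ZMod r) * tw t n).re * wt σ n := by
  rcases eq_or_ne n 0 with rfl | hn
  · simp [wt]
  · rw [LSeries.term_of_ne_zero hn, Pi.mul_apply, div_eq_mul_inv, pow_pt σ t hn]
    have : χ (n : ZMod r) * (vonMangoldt n : ℂ) * ((((n : ℝ) ^ (-σ) : ℝ) : ℂ) * tw t n) =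
        (χ (n : ZMod r) * tw t n) * ((wt σ n : ℝ) : ℂ) := by
      rw [wt]
      push_cast
      ring
    rw [this, Complex.re_mul_ofReal]

theorem term_zeta (σ t : ℝ) (n : ℕ) :
    (LSeries.term (fun n : ℕ => (vonMangoldt n : ℂ)) (pt σ t) n).re =
      (tw t n).re * wt σ n := by
  rcases eq_or_ne n 0 with rfl | hn
  · simp [wt]
  · rw [LSeries.term_of_ne_zero hn, div_eq_mul_inv, pow_pt σ t hn]
    have : (vonMangoldt n : ℂ) * ((((n : ℝ) ^ (-σ) : ℝ) : ℂ) * tw t n) =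
        (tw t n) * ((wt σ n : ℝ) : ℂ) := by
      rw [wt]
      push_cast
      ring
    rw [this, Complex.re_mul_ofReal]

theorem VC_hasSum {r : ℕ} (χ : DirichletCharacter ℂ r) {σ : ℝ} (t : ℝ) (hσ : 1 < σ) :
    HasSum (fun n : ℕ => (χ (n : ZMod r) * tw t n).re * wt σ n) (VC χ (pt σ t)) := by
  have h := (LSeriesSummable_twist_vonMangoldt χ (s := pt σ t) (by rw [pt_re]; exact hσ)).hasSum
  have h3 := ((Complex.hasSum_iff _ _).1 h).1
  simp only [term_chi] at h3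
  exact h3

theorem VZ_hasSum {σ : ℝ} (t : ℝ) (hσ : 1 < σ) :
    HasSum (fun n : ℕ => (tw t n).re * wt σ n) (VZ (pt σ t)) := by
  have h := (LSeriesSummable_vonMangoldt (s := pt σ t) (by rw [pt_re]; exact hσ)).hasSum
  have h3 := ((Complex.hasSum_iff _ _).1 h).1
  simp only [term_zeta] at h3
  exact h3

theorem VC_eq {r : ℕ} [NeZero r] (χ : DirichletCharacter ℂ r) {s : ℂ} (hs : 1 < s.re) :
    VC χ s = -(deriv (LFunction χ) s / LFunction χ s).re := by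
  rw [VC, LSeries_twist_vonMangoldt_eq χ hs, LFunction_eq_LSeries χ hs,
    deriv_LFunction_eq_deriv_LSeries χ hs, neg_div, Complex.neg_re]

theorem sq_re (w : ℂ) (h : ‖w‖ = 1) : (w ^ 2).re = 2 * w.re ^ 2 - 1 := by
  have h4 : w.re ^ 2 + w.im ^ 2 = 1 := by
    have := Complex.sq_norm w
    rw [h, Complex.normSq_apply] at this
    nlinarith
  rw [pow_two, Complex.mul_re]
  nlinarith

theorem norm_unit {r : ℕ} (χ : DirichletCharacter ℂ r) {n : ℕ} (hu : IsUnit (n : ZMod r)) :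
    ‖χ (n : ZMod r)‖ = 1 := by
  obtain ⟨u, hu⟩ := hu
  rw [← hu]
  exact χ.unit_norm_eq_one u

/-- 3-4-1, complex character -/
theorem tfo_complex {r : ℕ} (χ : DirichletCharacter ℂ r) {σ : ℝ} (t : ℝ) (hσ : 1 < σ) :
    0 ≤ 3 * VZ (pt σ 0) + 4 * VC χ (pt σ t) + VC (χ ^ 2) (pt σ (2 * t)) := by
  have h := (((VZ_hasSum 0 hσ).mul_left 3).add ((VC_hasSum χ t hσ).mul_left 4)).add
    (VC_hasSum (χ ^ 2) (2 * t) hσ)
  refine h.nonneg fun n => ?_
  have hnn := wt_nonneg σ n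
  rcases eq_or_ne n 0 with rfl | hn
  · simp [wt]
  have h0 : tw 0 n = 1 := by simp [tw]
  rw [h0, Complex.one_re]
  by_cases hu : IsUnit (n : ZMod r)
  · have h2 : (χ ^ 2) (n : ZMod r) = χ (n : ZMod r) ^ 2 := MulChar.pow_apply' χ two_ne_zero _
    rw [h2, tw_two t hn, ← mul_pow]
    set w := χ (n : ZMod r) * tw t n with hw
    have hw1 : ‖w‖ = 1 := by rw [hw, norm_mul, norm_unit χ hu, norm_tw t hn, mul_one]
    rw [sq_re w hw1]
    have h6 : 3 * (1 * wt σ n) + 4 * (w.re * wt σ n) + (2 * w.re ^ 2 - 1) * wt σ n =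
        (2 * (w.re + 1) ^ 2) * wt σ n := by ring
    rw [h6]
    exact mul_nonneg (by positivity) hnn
  · rw [MulChar.map_nonunit _ hu, MulChar.map_nonunit _ hu]
    simp only [zero_mul, Complex.zero_re, mul_zero, add_zero]
    linarith

/-- 3-4-1, real character -/
theorem tfo_real {r : ℕ} (χ : DirichletCharacter ℂ r) (hχ : χ ^ 2 = 1) {σ : ℝ} (t : ℝ)
    (hσ : 1 < σ) : 0 ≤ 3 * VZ (pt σ 0) + 4 * VC χ (pt σ t) + VZ (pt σ (2 * t)) := by
  have h := (((VZ_hasSum 0 hσ).mul_left 3).add ((VC_hasSum χ t hσ).mul_left 4)).add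
    (VZ_hasSum (2 * t) hσ)
  refine h.nonneg fun n => ?_
  have hnn := wt_nonneg σ n
  rcases eq_or_ne n 0 with rfl | hn
  · simp [wt]
  have h0 : tw 0 n = 1 := by simp [tw]
  rw [h0, Complex.one_re]
  by_cases hu : IsUnit (n : ZMod r)
  · have h2 : χ (n : ZMod r) ^ 2 = 1 := by
      rw [← MulChar.pow_apply' χ two_ne_zero, hχ]
      exact MulChar.one_apply hu
    set w := χ (n : ZMod r) * tw t n with hw
    have hw1 : ‖w‖ = 1 := by rw [hw, norm_mul, norm_unit χ hu, norm_tw t hn, mul_one]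
    have h3 : tw (2 * t) n = w ^ 2 := by rw [tw_two t hn, hw, mul_pow, h2, one_mul]
    rw [h3, sq_re w hw1]
    have h6 : 3 * (1 * wt σ n) + 4 * (w.re * wt σ n) + (2 * w.re ^ 2 - 1) * wt σ n =
        (2 * (w.re + 1) ^ 2) * wt σ n := by ring
    rw [h6]
    exact mul_nonneg (by positivity) hnn
  · rw [MulChar.map_nonunit _ hu]
    simp only [zero_mul, Complex.zero_re, mul_zero, add_zero]
    have h3 : -1 ≤ (tw (2 * t) n).re := by
      have h4 := Complex.abs_re_le_norm (tw (2 * t) n)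
      rw [norm_tw _ hn] at h4
      exact (abs_le.1 h4).1
    nlinarith

/-- the zeta sum -/
theorem VZ_le : ∃ C : ℝ, 0 < C ∧ ∀ σ t : ℝ, 1 < σ → σ ≤ 2 → |t| ≤ 1 →
    VZ (pt σ t) ≤ (σ - 1) / ((σ - 1) ^ 2 + t ^ 2) + C := by
  obtain ⟨C, hC, h⟩ := P013.J.zlogDeriv (P013.J.zgrowth P013.J.zapprox)
    (P013.J.zlower (P013.J.zgrowth P013.J.zapprox) P013.J.zapprox) P013.J.quot 0
  refine ⟨2 * C, by positivity, fun σ t h1 h2 ht => ?_⟩
  have h3 := h σ (t / (2 * Real.pi)) h1 h2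
  have hlin : P013.J.lin σ (t / (2 * Real.pi)) = pt σ t := by
    rw [P013.J.lin, pt]
    have : (Real.pi : ℂ) ≠ 0 := by exact_mod_cast Real.pi_ne_zero
    push_cast
    field_simp
  rw [hlin, iteratedDeriv_zero] at h3
  have hs : 1 < (pt σ t).re := by rw [pt_re]; exact h1
  have h7 : LSeries (fun n : ℕ => (vonMangoldt n : ℂ)) (pt σ t) =
      -deriv riemannZeta (pt σ t) / riemannZeta (pt σ t) :=
    LSeries_vonMangoldt_eq_deriv_riemannZeta_div hs
  have h10 := Complex.re_le_norm (-deriv riemannZeta (pt σ t) / riemannZeta (pt σ t) -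
    1 / (pt σ t - 1))
  rw [Complex.sub_re, ← h7] at h10
  rw [← h7] at h3
  have h11 : (1 / (pt σ t - 1)).re = (σ - 1) / ((σ - 1) ^ 2 + t ^ 2) := by
    rw [one_div, Complex.inv_re, Complex.normSq_apply, Complex.sub_re, Complex.sub_im, pt_re,
      pt_im, Complex.one_re, Complex.one_im, sub_zero]
    congr 1
    ring
  rw [h11] at h10
  have h12 : C * (|t / (2 * Real.pi)| + 1) ^ (1 / 2 : ℝ) ≤ 2 * C := by
    have h13 : |t / (2 * Real.pi)| ≤ 1 := by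
      rw [abs_div, abs_of_pos (by positivity : (0 : ℝ) < 2 * Real.pi), div_le_one (by positivity)]
      have := Real.pi_gt_three
      linarith
    have h14 : (|t / (2 * Real.pi)| + 1) ^ (1 / 2 : ℝ) ≤ (|t / (2 * Real.pi)| + 1) ^ (1 : ℝ) :=
      Real.rpow_le_rpow_of_exponent_le (by have := abs_nonneg (t / (2 * Real.pi)); linarith)
        (by norm_num)
    rw [Real.rpow_one] at h14
    nlinarith
  rw [VZ]
  linarith

/-- The disc `|z - (1 + δ + γ i)| ≤ 1/2`: bounds for `L`. -/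
theorem L_ratio_pt : ∃ C : ℝ, 2 ≤ C ∧ ∀ (r : ℕ) [NeZero r] (χ : DirichletCharacter ℂ r), χ ≠ 1 →
    ∀ δ γ : ℝ, 0 < δ → δ ≤ 1 / 2 → |γ| ≤ 1 / 2 → ∀ z ∈ closedBall (pt (1 + δ) γ) (1 / 2),
      ‖LFunction χ z‖ ≤ Real.exp (C * LL r) * ‖LFunction χ (pt (1 + δ) γ)‖ := by
  obtain ⟨c, hc, h⟩ := P013.J.llower P013.J.siegel (P013.J.lgrowth P013.J.lapprox) P013.J.zapprox 1
    one_pos
  refine ⟨max 2 (Real.log (39 / c)), le_max_left _ _, fun r _ χ hχ δ γ h0 h1 hγ z hz => ?_⟩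
  have hr1 : 1 ≤ r := Nat.one_le_iff_ne_zero.2 (NeZero.ne r)
  have hr : (1 : ℝ) ≤ r := by exact_mod_cast hr1
  set C := max 2 (Real.log (39 / c)) with hC
  have hz' : ‖z - pt (1 + δ) γ‖ ≤ 1 / 2 := by simpa [dist_eq_norm] using hz
  have hre : 1 / 2 ≤ z.re := by
    have h2 := Complex.abs_re_le_norm (z - pt (1 + δ) γ)
    rw [Complex.sub_re, pt_re] at h2
    have h3 := neg_abs_le (z.re - (1 + δ))
    linarith
  have hn : ‖z‖ ≤ 3 := by
    have h2 := norm_le_norm_sub_add z (pt (1 + δ) γ)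
    have h3 : ‖pt (1 + δ) γ‖ ≤ (1 + δ) + |γ| := by
      rw [pt]
      refine (norm_add_le _ _).trans ?_
      rw [norm_mul, Complex.norm_I, mul_one, Complex.norm_real, Complex.norm_real,
        Real.norm_eq_abs, Real.norm_eq_abs, abs_of_pos (by linarith : (0 : ℝ) < 1 + δ)]
    linarith
  have h2 := norm_L_le hχ hre hn
  have h3 : c / r / 3 ≤ ‖LFunction χ (pt (1 + δ) γ)‖ := by
    have h4 := h r χ hχ (pt (1 + δ) γ) (by rw [pt_re]; linarith) (by rw [pt_re]; linarith)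
    refine le_trans ?_ h4
    rw [pt_im, Real.rpow_neg (by positivity), Real.rpow_one]
    have h5 : (r : ℝ) * (|γ| + 2) ≤ r * 3 := by nlinarith
    have h6 : (0 : ℝ) < (r : ℝ) * (|γ| + 2) := by positivity
    calc c / r / 3 = c * ((r : ℝ) * 3)⁻¹ := by field_simp
      _ ≤ c * ((r : ℝ) * (|γ| + 2))⁻¹ := by gcongr
  have h4 : (39 / c) * (r : ℝ) ^ (2 : ℝ) ≤ Real.exp (C * LL r) := by
    rw [exp_mul_LL hr1]
    refine mul_le_mul ?_ ?_ (by positivity) (by positivity)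
    · rw [← Real.exp_log (show 0 < 39 / c by positivity)]
      exact Real.exp_le_exp.2 (le_max_right _ _)
    · exact Real.rpow_le_rpow_of_exponent_le hr (le_max_left _ _)
  calc ‖LFunction χ z‖ ≤ 13 * r := h2
    _ = (39 / c) * (r : ℝ) ^ (2 : ℝ) * (c / r / 3) := by
        rw [Real.rpow_two]; field_simp; norm_num
    _ ≤ _ := by gcongr

/-- Landau's inequality for `L(s, χ)` at `1 + δ + γ i` -/
theorem landau_pt : ∃ C : ℝ, 0 < C ∧ ∀ (r : ℕ) [NeZero r] (χ : DirichletCharacter ℂ r), χ ≠ 1 →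
    ∀ δ γ : ℝ, 0 < δ → δ ≤ 1 / 2 → |γ| ≤ 1 / 2 → ∀ (l0 : List ℂ) (g0 : ℂ → ℂ),
      Differentiable ℂ g0 → (∀ z, LFunction χ z = lp l0 z * g0 z) →
      (∀ a ∈ l0, a ∈ closedBall (pt (1 + δ) γ) (1 / 2)) →
      VC χ (pt (1 + δ) γ) ≤ C * LL r -
        (l0.map fun a => (pt (1 + δ) γ - a).re *
          (1 / ‖pt (1 + δ) γ - a‖ ^ 2 - 1 / (1 / 2) ^ 2)).sum := by
  obtain ⟨C, hC2, h⟩ := L_ratio_pt
  refine ⟨12 * C, by linarith, fun r _ χ hχ δ γ h0 h1 hγ l0 g0 hg0 hf hl0 => ?_⟩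
  have hr1 : 1 ≤ r := Nat.one_le_iff_ne_zero.2 (NeZero.ne r)
  have hLL := one_le_LL hr1
  have hre : 1 < (pt (1 + δ) γ).re := by rw [pt_re]; linarith
  have hc : LFunction χ (pt (1 + δ) γ) ≠ 0 :=
    LFunction_ne_zero_of_one_le_re χ (Or.inl hχ) hre.le
  have h2 := landau (f := LFunction χ) (differentiable_LFunction hχ) (c := pt (1 + δ) γ)
    (R := 1 / 2) (M := C * LL r) (by norm_num) (by positivity) hc
    (fun z hz => h r χ hχ δ γ h0 h1 hγ z hz)
    (fun z _ hz0 => by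
      have := zero_re_lt hχ hz0
      linarith) l0 g0 hg0 hf hl0
  rw [VC_eq χ hre]
  linarith

/-- the contribution of the zero `a` to Landau's inequality at height `a.im` -/
theorem contrib_pt {δ : ℝ} (h0 : 0 < δ) (h1 : δ ≤ 1 / 20) {a : ℂ} (ha : 1 - δ / 20 < a.re)
    (hre : a.re < 1) :
    a ∈ closedBall (pt (1 + δ) a.im) (1 / 2) ∧
    0.94 / δ ≤ (pt (1 + δ) a.im - a).re *
      (1 / ‖pt (1 + δ) a.im - a‖ ^ 2 - 1 / (1 / 2) ^ 2) := by
  have h2 : pt (1 + δ) a.im - a = ((1 + δ - a.re : ℝ) : ℂ) := by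
    apply Complex.ext
    · rw [Complex.sub_re, pt_re, Complex.ofReal_re]
    · rw [Complex.sub_im, pt_im, Complex.ofReal_im, sub_self]
  set x := 1 + δ - a.re with hx
  have hx0 : δ < x := by rw [hx]; linarith
  have hx1 : x ≤ 1.05 * δ := by rw [hx]; linarith
  have hx2 : 0 < x := h0.trans hx0
  constructor
  · rw [mem_closedBall, dist_comm, dist_eq_norm, h2, Complex.norm_real, Real.norm_eq_abs,
      abs_of_pos hx2]
    linarith
  · rw [h2, Complex.norm_real, Real.norm_eq_abs, abs_of_pos hx2, Complex.ofReal_re]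
    have h3 : x * (1 / x ^ 2 - 1 / (1 / 2) ^ 2) = 1 / x - 4 * x := by
      field_simp
      norm_num
    rw [h3]
    have h4 : 1 / (1.05 * δ) ≤ 1 / x := by gcongr
    have h5 : (0.94 : ℝ) / δ + 4 * (1.05 * δ) ≤ 1 / (1.05 * δ) := by
      rw [div_add' _ _ _ h0.ne', div_le_div_iff₀ h0 (by positivity)]
      nlinarith [mul_pos h0 h0]
    linarith

theorem fin_real {C0 C2 L e V0 V1 V2 X S : ℝ} (hC0 : 0 ≤ C0) (hC2 : 0 ≤ C2) (hL : 1 ≤ L)
    (he : 0 < e) (hb3 : (4 * C0 + 5 * C2) * L ≤ (1 / 4) * e) (h4 : 0 ≤ 3 * V0 + 4 * V1 + V2)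
    (hV0 : V0 ≤ e + C0) (h1 : V1 ≤ C2 * L - S) (hcon : 0.94 * e ≤ S) (hV2 : V2 ≤ X + C0)
    (h12 : X ≤ 0.25 * e) : False := by
  have h7 : C0 ≤ C0 * L := by nlinarith
  have h8 : 0 ≤ C2 * L := by positivity
  have h9 : (4 * C0 + 5 * C2) * L = 4 * (C0 * L) + 5 * (C2 * L) := by ring
  rw [h9] at hb3
  linarith

theorem fin_complex {C0 C2 L e V0 V1 V2 S : ℝ} (hC0 : 0 ≤ C0) (hC2 : 0 ≤ C2) (hL : 1 ≤ L)
    (he : 0 < e) (hb3 : (4 * C0 + 5 * C2) * L ≤ (1 / 4) * e) (h4 : 0 ≤ 3 * V0 + 4 * V1 + V2)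
    (hV0 : V0 ≤ e + C0) (h1 : V1 ≤ C2 * L - S) (hcon : 0.94 * e ≤ S) (hV2 : V2 ≤ C2 * L) :
    False := by
  have h7 : C0 ≤ C0 * L := by nlinarith
  have h8 : 0 ≤ C2 * L := by positivity
  have h10 : 0 ≤ C0 * L := by positivity
  have h9 : (4 * C0 + 5 * C2) * L = 4 * (C0 * L) + 5 * (C2 * L) := by ring
  rw [h9] at hb3
  linarith

/-- the zero-free region, from the pieces -/
theorem key {c₀ C0 C2 b : ℝ} (hC0 : 0 < C0) (hC2 : 0 < C2) (hb0 : 0 < b) (hbc : b ≤ c₀ / 2)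
    (hb2 : b ≤ 1 / (4 * (4 * C0 + 5 * C2))) (hb1 : b ≤ 1 / 20)
    (hV : ∀ σ t : ℝ, 1 < σ → σ ≤ 2 → |t| ≤ 1 →
      VZ (pt σ t) ≤ (σ - 1) / ((σ - 1) ^ 2 + t ^ 2) + C0)
    (hL : ∀ (r : ℕ) [NeZero r] (χ : DirichletCharacter ℂ r), χ ≠ 1 →
      ∀ δ γ : ℝ, 0 < δ → δ ≤ 1 / 2 → |γ| ≤ 1 / 2 → ∀ (l0 : List ℂ) (g0 : ℂ → ℂ),
        Differentiable ℂ g0 → (∀ z, LFunction χ z = lp l0 z * g0 z) →
        (∀ a ∈ l0, a ∈ closedBall (pt (1 + δ) γ) (1 / 2)) →
        VC χ (pt (1 + δ) γ) ≤ C2 * LL r -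
          (l0.map fun a => (pt (1 + δ) γ - a).re *
            (1 / ‖pt (1 + δ) γ - a‖ ^ 2 - 1 / (1 / 2) ^ 2)).sum)
    (r : ℕ) [NeZero r] (χ : DirichletCharacter ℂ r) (hχ : χ ≠ 1) (a : ℂ)
    (h0 : LFunction χ a = 0) (ha : ‖a - 1‖ < 1 / 8) (hre : 1 - b / 20 / LL r < a.re) :
    χ ^ 2 = 1 ∧ ‖a - 1‖ < c₀ / LL r := by
  have hr1 : 1 ≤ r := Nat.one_le_iff_ne_zero.2 (NeZero.ne r)
  have hLL := one_le_LL hr1
  obtain ⟨δ, hδ⟩ : ∃ δ : ℝ, δ = b / LL r := ⟨_, rfl⟩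
  have hδ0 : 0 < δ := by rw [hδ]; positivity
  have hδ1 : δ ≤ 1 / 20 := by
    rw [hδ, div_le_iff₀ (by positivity)]
    nlinarith
  have hδb : (1 : ℝ) / δ = LL r / b := by rw [hδ]; field_simp
  have hb3 : (4 * C0 + 5 * C2) * LL r ≤ (1 / 4) * (1 / δ) := by
    rw [hδb]
    have h4 : 4 * C0 + 5 * C2 ≤ 1 / (4 * b) := by
      rw [le_div_iff₀ (by positivity)]
      rw [le_div_iff₀ (by positivity)] at hb2
      linarith
    calc (4 * C0 + 5 * C2) * LL r ≤ 1 / (4 * b) * LL r := by gcongr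
      _ = 1 / 4 * (LL r / b) := by field_simp
  have hre' : 1 - δ / 20 < a.re := by
    have : b / 20 / LL r = δ / 20 := by rw [hδ]; ring
    rw [this] at hre
    exact hre
  have hre1 := zero_re_lt hχ h0
  obtain ⟨hmem, hcon⟩ := contrib_pt hδ0 hδ1 hre' hre1
  have him : |a.im| ≤ 1 / 8 := by
    have h1 := Complex.abs_im_le_norm (a - 1)
    rw [Complex.sub_im, Complex.one_im, sub_zero] at h1
    linarith
  have hLd := differentiable_LFunction hχ
  have hd : Differentiable ℂ (dslope (LFunction χ) a) := by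
    rw [← differentiableOn_univ, Complex.differentiableOn_dslope Filter.univ_mem]
    exact hLd.differentiableOn
  have he : ∀ z, LFunction χ z = (z - a) * dslope (LFunction χ) a z := by
    intro z
    have := sub_smul_dslope (LFunction χ) a z
    rw [h0, sub_zero, smul_eq_mul] at this
    exact this.symm
  have h1 := hL r χ hχ δ a.im hδ0 (by linarith) (by linarith) [a] (dslope (LFunction χ) a) hd
    (fun z => by rw [he z, lp_cons, lp_nil, mul_one]) (by simpa using hmem)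
  simp only [List.map_cons, List.map_nil, List.sum_cons, List.sum_nil, add_zero] at h1
  have hV0 := hV (1 + δ) 0 (by linarith) (by linarith) (by simp)
  have e0 : (1 + δ - 1) / ((1 + δ - 1) ^ 2 + (0 : ℝ) ^ 2) = 1 / δ := by
    rw [add_sub_cancel_left]
    field_simp
    ring
  rw [e0] at hV0
  have h5 : (0.94 : ℝ) / δ = 0.94 * (1 / δ) := by ring
  rw [h5] at hcon
  have h6 : 0 < 1 / δ := by positivity
  have him2 : |2 * a.im| ≤ 1 / 2 := by
    rw [abs_mul, abs_of_pos (by norm_num : (0 : ℝ) < 2)]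
    linarith
  by_cases hχ2 : χ ^ 2 = 1
  · refine ⟨hχ2, ?_⟩
    by_contra hfar
    push Not at hfar
    have h8 : c₀ / LL r ≤ |a.re - 1| + |a.im| := by
      refine hfar.trans ?_
      have := Complex.norm_le_abs_re_add_abs_im (a - 1)
      rw [Complex.sub_re, Complex.sub_im, Complex.one_re, Complex.one_im, sub_zero] at this
      exact this
    have h9 : |a.re - 1| ≤ δ / 20 := by
      rw [abs_sub_comm, abs_of_pos (by linarith)]
      linarith
    have h10 : 2 * δ ≤ c₀ / LL r := by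
      rw [hδ, le_div_iff₀ (by positivity)]
      have : 2 * (b / LL r) * LL r = 2 * b := by field_simp
      rw [this]
      linarith
    have h11 : δ ≤ |a.im| := by linarith
    have hV2 := hV (1 + δ) (2 * a.im) (by linarith) (by linarith) (by linarith)
    have h12 : (1 + δ - 1) / ((1 + δ - 1) ^ 2 + (2 * a.im) ^ 2) ≤ 0.25 * (1 / δ) := by
      rw [add_sub_cancel_left]
      have h13 : δ ^ 2 ≤ a.im ^ 2 := by
        rw [← sq_abs a.im]
        gcongr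
      have h14 : 0.25 * (1 / δ) = 0.25 / δ := by ring
      rw [h14, div_le_div_iff₀ (by positivity) hδ0]
      nlinarith
    have h4 := tfo_real χ hχ2 a.im (σ := 1 + δ) (by linarith)
    exact fin_real hC0.le hC2.le hLL h6 hb3 h4 hV0 h1 hcon hV2 h12
  · exfalso
    have h3 := hL r (χ ^ 2) hχ2 δ (2 * a.im) hδ0 (by linarith) him2 []
      (LFunction (χ ^ 2)) (differentiable_LFunction hχ2) (fun z => by rw [lp_nil, one_mul])
      (by simp)
    simp only [List.map_nil, List.sum_nil, sub_zero] at h3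
    have h4 := tfo_complex χ a.im (σ := 1 + δ) (by linarith)
    exact fin_complex hC0.le hC2.le hLL h6 hb3 h4 hV0 h1 hcon h3

/-- **ZF** -/
theorem zf : ZFStmt := by
  obtain ⟨c₀, hc0, hc0', hzf⟩ := zero_free
  obtain ⟨C0, hC0, hV⟩ := VZ_le
  obtain ⟨C2, hC2, hL⟩ := landau_pt
  -- `δ = b / LL`
  set b : ℝ := min (c₀ / 2) (1 / (4 * (4 * C0 + 5 * C2))) with hb
  have hb0 : 0 < b := by rw [hb]; positivity
  have hbc : b ≤ c₀ / 2 := min_le_left _ _
  have hb2 : b ≤ 1 / (4 * (4 * C0 + 5 * C2)) := min_le_right _ _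
  have hb1 : b ≤ 1 / 20 := by linarith
  have key := key (c₀ := c₀) hC0 hC2 hb0 hbc hb2 hb1 hV hL
  refine ⟨b / 20, 1 / 8, by positivity, by linarith, by norm_num, le_rfl, fun r _ χ hχ => ?_⟩
  constructor
  · intro hχ2 a ha hre h0
    exact hχ2 (key r χ hχ a h0 ha hre).1
  · intro a ha hre h0 b' hb' hreb hb0'
    have h1 := (key r χ hχ a h0 ha hre).2
    have hLb : LFunction χ b' = 0 := by
      have h2 := sub_smul_dslope (LFunction χ) a b'
      rw [hb0', smul_zero, h0, sub_zero] at h2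
      exact h2.symm
    exact (hzf r χ hχ).2 a h1 h0 b' (key r χ hχ b' hLb hb' hreb).2 hb0'

end Vale.Agent.P319.S2.NT
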