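import Vale.Agent.P319.S2.NT.NR12
import Vale.Agent.P319.S2.NT.Q12
import Vale.Agent.P319.S2.NT.IA12
import Vale.Agent.P319.S2.NT.Den12
import Vale.Agent.P319.S2.NT.Rep12
import Vale.Agent.P319.S2.NT.ZF
import Vale.Agent.P319.S2.NT.BndR
import Vale.Agent.P319.Ev.T1

/-! P319, block S2: (NR2) with the exponent `1/2`, unconditional. -/

namespace Vale.Agent.P319.S2.NT

open Vale.Agent.P319.Ev

/-- **NR2**, exponent `1/2` -/
theorem nr2 : NR2Stmt := nr2_of (ql2 (ia2 den rep zf bndR bndOneR) ib ql)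

end Vale.Agent.P319.S2.NT
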